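import Vale.Agent.P021.Num.Defs

/-!
Divisibility of the coefficients and integrality at the two end points.
-/

open Polynomial Finset Complex
open scoped ComplexConjugate

noncomputable section

namespace Vale.Agent.P021.Num

/-- Gaussian integers inside `ℂ` -/
def GI : Subring ℂ := GaussianInt.toComplex.range

lemma I_mem_GI : I ∈ GI := ⟨⟨0, 1⟩, by simp [GaussianInt.toComplex_def]⟩

lemma one_add_I_mem : (1 + I : ℂ) ∈ GI := add_mem (one_mem _) I_mem_GI

lemma one_add_I_ne : (1 + I : ℂ) ≠ 0 := by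
  intro h; simpa using congrArg Complex.re h

lemma zpow_one_add_I_mem {a : ℤ} (ha : 0 ≤ a) : (1 + I : ℂ) ^ a ∈ GI := by
  lift a to ℕ using ha
  rw [zpow_natCast]; exact pow_mem one_add_I_mem _

lemma coeff_mem_of_lifts {p : ℂ[X]} (h : p ∈ Polynomial.lifts GI.subtype) (i : ℕ) :
    p.coeff i ∈ GI := by
  obtain ⟨q, rfl⟩ := (mem_lifts _).1 h
  rw [coeff_map]; exact (q.coeff i).2

lemma C_mem_lifts {x : ℂ} (hx : x ∈ GI) : C x ∈ Polynomial.lifts GI.subtype :=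
  C'_mem_lifts ⟨⟨x, hx⟩, rfl⟩

lemma X_mem_lifts' : (X : ℂ[X]) ∈ Polynomial.lifts GI.subtype := X_mem_lifts _

lemma two_adic_coeff (n i : ℕ) :
    (cf n i : ℂ) * (1 + I) ^ ((n : ℤ) - i) ∈ GI := by
  have key : C (1 + I) * (Kp.map (Int.castRingHom ℂ)).comp (C (1 / (1 + I)) * X)
      = (X + C (4 + 4 * I)) * (C (-I) * X ^ 2 + C (7 * (1 - I)) * X + C 25) := by
    apply Polynomial.funext
    intro x
    simp only [Kp, Polynomial.map_mul, Polynomial.map_add, map_X, Polynomial.map_pow,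
      eval_mul, eval_comp, eval_add, eval_C, eval_X, eval_pow, eq_intCast]
    simp only [Polynomial.map_ofNat, eval_ofNat, Int.cast_ofNat]
    obtain ⟨y, rfl⟩ : ∃ y, x = (1 + I) * y := ⟨x / (1 + I), by field_simp [one_add_I_ne]⟩
    rw [← mul_assoc (1 / (1 + I)), one_div_mul_cancel one_add_I_ne, one_mul]
    linear_combination (1 + I) * (y + 4) * ((I + 2) * y ^ 2 + 7 * y) * I_sq
  have hl : ((C (1 + I) * (Kp.map (Int.castRingHom ℂ)).comp (C (1 / (1 + I)) * X)) ^ n)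
      ∈ Polynomial.lifts GI.subtype := by
    rw [key]
    refine pow_mem (mul_mem (add_mem X_mem_lifts' (C_mem_lifts ?_)) (add_mem (add_mem
      (mul_mem (C_mem_lifts (neg_mem I_mem_GI)) (pow_mem X_mem_lifts' 2))
      (mul_mem (C_mem_lifts ?_) X_mem_lifts')) (C_mem_lifts ?_))) n
    · exact add_mem (intCast_mem GI 4) (mul_mem (intCast_mem GI 4) I_mem_GI)
    · exact mul_mem (intCast_mem GI 7) (sub_mem (one_mem _) I_mem_GI)
    · exact intCast_mem GI 25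
  have h := coeff_mem_of_lifts hl i
  rw [mul_pow, ← C_pow, coeff_C_mul, ← pow_comp, ← Polynomial.map_pow, comp_C_mul_X_coeff,
    coeff_map] at h
  convert h using 1
  rw [zpow_sub₀ one_add_I_ne, zpow_natCast, zpow_natCast, cf, eq_intCast, div_pow, one_pow]
  ring

lemma five_adic_coeff (n i : ℕ) (hi : i ≤ n) : (25 : ℤ) ^ (n - i) ∣ cf n i := by
  have key : Kp.comp (C 25 * X) = C 25 * ((C 25 * X + C 4) * (C 50 * X ^ 2 + C 14 * X + C 1)) := by
    apply Polynomial.funext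
    intro x
    simp only [Kp, eval_mul, eval_comp, eval_add, eval_C, eval_X, eval_pow]
    ring
  have h : ((Kp.comp (C 25 * X)) ^ n).coeff i = cf n i * 25 ^ i := by
    rw [← pow_comp, comp_C_mul_X_coeff]; rfl
  rw [key, mul_pow, ← C_pow, coeff_C_mul] at h
  have h2 : (25 : ℤ) ^ (n - i) * 25 ^ i ∣ cf n i * 25 ^ i := by
    rw [← pow_add, Nat.sub_add_cancel hi, ← h]; exact dvd_mul_right _ _
  exact (mul_dvd_mul_iff_right (pow_ne_zero _ (by norm_num : (25 : ℤ) ≠ 0))).1 h2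

lemma den_dvd (n : ℕ) {d : ℤ} (hd : d ≠ 0) (h : |d| ≤ 2 * (n : ℤ) + 2) :
    ∃ c : ℤ, (den n : ℂ) / (d : ℂ) = c := by
  have hd' : (d.natAbs : ℕ) ∣ den n := by
    refine Finset.dvd_lcm (s := Finset.Icc 1 (2 * n + 2)) (f := id) (Finset.mem_Icc.2 ⟨?_, ?_⟩)
    · exact Int.natAbs_pos.2 hd
    · change Int.natAbs d ≤ 2 * n + 2
      rw [Int.abs_eq_natAbs] at h; omega
  obtain ⟨c, hc⟩ := Int.natAbs_dvd.1 (Int.natCast_dvd_natCast.2 hd')
  refine ⟨c, ?_⟩
  rw [div_eq_iff (Int.cast_ne_zero.2 hd), mul_comm]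
  exact_mod_cast hc

lemma div_den_mem (n : ℕ) (d : ℤ) (h : |d| ≤ 2 * (n : ℤ) + 2) :
    (den n : ℂ) / (d : ℂ) ∈ GI := by
  by_cases hd : d = 0
  · simp [hd, zero_mem]
  · obtain ⟨c, hc⟩ := den_dvd n hd h
    rw [hc]; exact intCast_mem _ _

/-- coefficient of a positive index term, times a power of `1+I` -/
lemma Apr_coeff_mem (n k i l j : ℕ) (hk : k ≤ 2) (hi : i < 3 * n + 1)
    (hl : (l : ℤ) = (i : ℤ) + k - n) (hj : j < 2 * l + 1) :
    (1 + I) ^ 2 * (den n : ℂ) * (cf n i : ℂ) * (((2 * l).choose j : ℂ) * (-1) ^ j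
      / (((j : ℤ) - l : ℤ) : ℂ)) * (1 + I) ^ ((j : ℤ) - l) ∈ GI := by
  have hd : (den n : ℂ) / (((j : ℤ) - l : ℤ) : ℂ) ∈ GI := div_den_mem n _ (by
    rw [abs_le]; omega)
  have hc : (((2 * l).choose j : ℂ) * (-1) ^ j) ∈ GI :=
    mul_mem (natCast_mem _ _) (pow_mem (neg_mem (one_mem _)) _)
  by_cases hin : i ≤ n
  · have : (1 + I) ^ (2 + ((j : ℤ) - l)) ∈ GI := zpow_one_add_I_mem (by omega)
    rw [zpow_add₀ one_add_I_ne] at this
    have := mul_mem (mul_mem (mul_mem hd hc) (intCast_mem GI (cf n i))) this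
    convert this using 1
    rw [show (2 : ℤ) = ((2 : ℕ) : ℤ) by rfl, zpow_natCast]; ring
  · have h2 := two_adic_coeff n i
    have : (1 + I) ^ (2 + ((j : ℤ) - l) - ((n : ℤ) - i)) ∈ GI := zpow_one_add_I_mem (by omega)
    rw [zpow_sub₀ one_add_I_ne, zpow_add₀ one_add_I_ne] at this
    have := mul_mem (mul_mem (mul_mem hd hc) h2) this
    convert this using 1
    have := zpow_ne_zero ((n : ℤ) - i) one_add_I_ne
    rw [show (2 : ℤ) = ((2 : ℕ) : ℤ) by rfl, zpow_natCast]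
    field_simp

/-- end points: unit multiples of `1+I` whose shift by one has norm five -/
structure IsEnd (z : ℂ) : Prop where
  exu : ∃ u u' : ℂ, u ∈ GI ∧ u' ∈ GI ∧ z = (1 + I) * u ∧ u * u' = 1
  exv : ∃ w : ℂ, w ∈ GI ∧ (z - 1) * w = 5

lemma isEnd_ga : IsEnd ga where
  exu := ⟨I, -I, I_mem_GI, neg_mem I_mem_GI, by rw [ga]; linear_combination -I_sq, by
    linear_combination -I_sq⟩
  exv := ⟨-2 - I, sub_mem (neg_mem (intCast_mem GI 2)) I_mem_GI, by
    rw [ga]; linear_combination -I_sq⟩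

lemma isEnd_gb : IsEnd gb where
  exu := ⟨-1, -1, neg_mem (one_mem _), neg_mem (one_mem _), by rw [gb]; ring, by norm_num⟩
  exv := ⟨-2 + I, add_mem (neg_mem (intCast_mem GI 2)) I_mem_GI, by
    rw [gb]; linear_combination -I_sq⟩

lemma zpow_unit_mem {u u' : ℂ} (hu : u ∈ GI) (hu' : u' ∈ GI) (h : u * u' = 1) (a : ℤ) :
    u ^ a ∈ GI := by
  cases a with
  | ofNat m => rw [Int.ofNat_eq_natCast, zpow_natCast]; exact pow_mem hu m
  | negSucc m =>
    rw [zpow_negSucc, inv_pow_eq_of h]; exact pow_mem hu' _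
where
  inv_pow_eq_of {u u' : ℂ} (h : u * u' = 1) {m : ℕ} : (u ^ m)⁻¹ = u' ^ m := by
    rw [← inv_pow, inv_eq_of_mul_eq_one_right h]

/-- integrality of the scaled antiderivative at an end point -/
lemma G_end_mem (n k : ℕ) (hk : k ≤ 2) {z : ℂ} (hz : IsEnd z) :
    (1 + I) ^ 2 * (den n : ℂ) * G n k z ∈ GI := by
  rw [G, Finset.mul_sum]
  refine sum_mem fun i hi => ?_
  have hi := Finset.mem_range.1 hi
  generalize hl : (i : ℤ) + k - n = l
  obtain ⟨u, u', hu, hu', hzu, huu⟩ := hz.exu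
  obtain ⟨w, hw, hzw⟩ := hz.exv
  cases l with
  | ofNat l =>
    simp only [Int.ofNat_eq_natCast] at hl
    show _ * (_ * Apr l z) ∈ GI
    rw [Apr, Finset.mul_sum, Finset.mul_sum]
    refine sum_mem fun j hj => ?_
    have := mul_mem (Apr_coeff_mem n k i l j hk hi hl.symm (Finset.mem_range.1 hj))
      (zpow_unit_mem hu hu' huu ((j : ℤ) - l))
    convert this using 1
    rw [hzu, mul_zpow]; ring
  | negSucc j =>
    show _ * (_ * Bpr (j + 1) z) ∈ GI
    rw [Bpr, Finset.mul_sum, Finset.mul_sum]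
    refine sum_mem fun m hm => ?_
    have hm := Finset.mem_range.1 hm
    obtain ⟨c, hc⟩ := five_adic_coeff n i (by omega)
    obtain ⟨r, hr⟩ : ∃ r : ℕ, 2 * (j + 1) = m + 1 + r := ⟨2 * (j + 1) - (m + 1), by omega⟩
    obtain ⟨s, hs⟩ : ∃ s : ℕ, 2 * (n - i) = r + s := ⟨2 * (n - i) - r, by omega⟩
    have hd : (den n : ℂ) / ((((m : ℤ) - 2 * (j + 1 : ℕ) + 1 : ℤ)) : ℂ) ∈ GI :=
      div_den_mem n _ (by rw [abs_le]; omega)
    have hexp : ((m : ℤ) - 2 * (j + 1 : ℕ) + 1) = -(r : ℤ) := by omega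
    have : (1 + I) ^ 2 * ((den n : ℂ) / ((((m : ℤ) - 2 * (j + 1 : ℕ) + 1 : ℤ)) : ℂ))
        * (((j + 1 - 1).choose m : ℕ) : ℂ) * (c : ℂ) * (5 : ℂ) ^ s * w ^ r ∈ GI :=
      mul_mem (mul_mem (mul_mem (mul_mem (mul_mem (pow_mem one_add_I_mem 2) hd) (natCast_mem _ _))
        (intCast_mem _ _)) (pow_mem (intCast_mem GI 5) _)) (pow_mem hw _)
    convert this using 1
    have hz1 : z - 1 ≠ 0 := by
      intro h; rw [h, zero_mul] at hzw; norm_num at hzw
    have e25 : (cf n i : ℂ) = (5 : ℂ) ^ r * 5 ^ s * c := by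
      rw [hc, ← pow_add, ← hs, pow_mul]; push_cast; norm_num
    rw [e25, hexp, zpow_neg, zpow_natCast, show w = 5 / (z - 1) by
      rw [eq_div_iff hz1, mul_comm]; exact hzw, div_pow]
    ring

end Vale.Agent.P021.Num
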