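import Mathlib

/-!
The family of approximations: `ω = ((v+4)(2v²+14v+25))^n v^(k-n) dz/z`, `v = (z-1)²/z`.
-/

open Polynomial Finset
open scoped Real

noncomputable section

namespace Vale.Agent.P021.Num

/-- the basic cubic -/
def Kp : ℤ[X] := (X + C 4) * (C 2 * X ^ 2 + C 14 * X + C 25)

/-- coefficients of the n-th power -/
def cf (n i : ℕ) : ℤ := (Kp ^ n).coeff i

/-- the substitution -/
def vv (z : ℂ) : ℂ := (z - 1) ^ 2 / z

/-- antiderivative of `(v^l - rr l)/z` -/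
def Apr (l : ℕ) (z : ℂ) : ℂ :=
  ∑ j ∈ range (2 * l + 1),
    ((2 * l).choose j : ℂ) * (-1) ^ j / (((j : ℤ) - l : ℤ) : ℂ) * z ^ ((j : ℤ) - l)

/-- antiderivative of `v^(-j)/z` -/
def Bpr (j : ℕ) (z : ℂ) : ℂ :=
  ∑ i ∈ range j,
    ((j - 1).choose i : ℂ) / (((i : ℤ) - 2 * j + 1 : ℤ) : ℂ) * (z - 1) ^ ((i : ℤ) - 2 * j + 1)

/-- antiderivative, non logarithmic part -/
def Pr : ℤ → ℂ → ℂ
  | Int.ofNat l => Apr l
  | Int.negSucc j => Bpr (j + 1)

/-- residue at zero -/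
def rr : ℤ → ℤ
  | Int.ofNat l => (-1) ^ l * (2 * l).choose l
  | Int.negSucc _ => 0

/-- antiderivative of the form -/
def G (n k : ℕ) (z : ℂ) : ℂ :=
  ∑ i ∈ range (3 * n + 1), (cf n i : ℂ) * Pr ((i : ℤ) + k - n) z

/-- residue of the form -/
def res (n k : ℕ) : ℤ := ∑ i ∈ range (3 * n + 1), cf n i * rr ((i : ℤ) + k - n)

/-- the form, as a function -/
def om (n k : ℕ) (z : ℂ) : ℂ :=
  (Kp.map (Int.castRingHom ℂ)).eval (vv z) ^ n * vv z ^ ((k : ℤ) - n) / z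

/-- lcm used as common denominator -/
def den (n : ℕ) : ℕ := Nat.lcmUpto (2 * n + 2)

def ga : ℂ := -1 + Complex.I

def gb : ℂ := -1 - Complex.I

lemma natDegree_Kp_le : Kp.natDegree ≤ 3 := by
  unfold Kp; compute_degree

lemma natDegree_Kp_pow_lt (n : ℕ) : (Kp ^ n).natDegree < 3 * n + 1 := by
  have := natDegree_pow_le (p := Kp) (n := n)
  have := Nat.mul_le_mul_left n natDegree_Kp_le
  omega

lemma eval_Kp_pow (n : ℕ) (x : ℂ) :
    (Kp.map (Int.castRingHom ℂ)).eval x ^ n = ∑ i ∈ range (3 * n + 1), (cf n i : ℂ) * x ^ i := by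
  rw [← eval_pow, ← Polynomial.map_pow, eval_eq_sum_range' (n := 3 * n + 1)]
  · simp only [coeff_map, cf, eq_intCast]
  · exact (natDegree_map_le).trans_lt (natDegree_Kp_pow_lt n)

end Vale.Agent.P021.Num
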