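import Vale.Agent.P021.Num.Defs

/-!
Derivatives of the antiderivatives.
-/

open Polynomial Finset

noncomputable section

namespace Vale.Agent.P021.Num

variable {z : ℂ}

lemma vv_ne_zero (h0 : z ≠ 0) (h1 : z ≠ 1) : vv z ≠ 0 :=
  div_ne_zero (pow_ne_zero _ (sub_ne_zero.2 h1)) h0

lemma hasDerivAt_zpow_term (h0 : z ≠ 0) (c : ℂ) (d : ℤ) (a : ℂ)
    (ha : a = if d = 0 then 0 else c * z ^ (d - 1)) :
    HasDerivAt (fun x : ℂ => c / (d : ℂ) * x ^ d) a z := by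
  by_cases hd : d = 0
  · subst hd; simp [ha, hasDerivAt_const]
  · have := (hasDerivAt_zpow d z (Or.inl h0)).const_mul (c / (d : ℂ))
    refine this.congr_deriv ?_
    have : (d : ℂ) ≠ 0 := Int.cast_ne_zero.2 hd
    rw [ha, if_neg hd]; field_simp

lemma hasDerivAt_Apr (h0 : z ≠ 0) (l : ℕ) :
    HasDerivAt (Apr l) ((vv z ^ (l : ℤ) - (rr (l : ℤ) : ℂ)) / z) z := by
  have h : ∀ j ∈ range (2 * l + 1), HasDerivAt
      (fun x : ℂ => ((2 * l).choose j : ℂ) * (-1) ^ j / (((j : ℤ) - l : ℤ) : ℂ) * x ^ ((j : ℤ) - l))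
      (if (j : ℤ) - l = 0 then 0 else ((2 * l).choose j : ℂ) * (-1) ^ j * z ^ ((j : ℤ) - l - 1)) z :=
    fun j _ => hasDerivAt_zpow_term h0 _ _ _ rfl
  refine (HasDerivAt.fun_sum h).congr_deriv ?_
  have e : ∀ j ∈ range (2 * l + 1),
      (if (j : ℤ) - l = 0 then 0 else ((2 * l).choose j : ℂ) * (-1) ^ j * z ^ ((j : ℤ) - l - 1))
      = ((2 * l).choose j : ℂ) * (-1) ^ j * z ^ j / z ^ l / z
        - (if j = l then ((2 * l).choose l : ℂ) * (-1) ^ l / z else 0) := by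
    intro j _
    by_cases hj : j = l
    · subst hj; rw [if_pos (by simp), if_pos rfl]; field_simp; ring
    · rw [if_neg (by omega), if_neg hj, sub_zero, zpow_sub₀ h0, zpow_sub₀ h0, zpow_one,
        zpow_natCast, zpow_natCast]
      ring
  rw [Finset.sum_congr rfl e, Finset.sum_sub_distrib, Finset.sum_ite_eq',
    if_pos (Finset.mem_range.2 (by omega)), ← Finset.sum_div, ← Finset.sum_div]
  have hb : ∑ j ∈ range (2 * l + 1), ((2 * l).choose j : ℂ) * (-1) ^ j * z ^ j = (1 - z) ^ (2 * l) := by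
    rw [sub_eq_add_neg 1 z, add_comm 1 (-z), add_pow]
    refine Finset.sum_congr rfl fun j _ => ?_
    rw [neg_pow, one_pow]; ring
  rw [hb, zpow_natCast, show (rr (l : ℤ) : ℂ) = (-1) ^ l * ((2 * l).choose l : ℂ) by
    simp [rr], vv, div_pow, ← pow_mul]
  rw [show (1 - z) ^ (2 * l) = (z - 1) ^ (2 * l) by rw [pow_mul, pow_mul, ← neg_sq, neg_sub]]
  ring

lemma hasDerivAt_Bpr (h0 : z ≠ 0) (h1 : z ≠ 1) (j : ℕ) :
    HasDerivAt (Bpr (j + 1)) (vv z ^ (-((j : ℤ) + 1)) / z) z := by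
  have h1' : z - 1 ≠ 0 := sub_ne_zero.2 h1
  have h : ∀ i ∈ range (j + 1), HasDerivAt
      (fun x : ℂ => ((j + 1 - 1).choose i : ℂ) / (((i : ℤ) - 2 * (j + 1 : ℕ) + 1 : ℤ) : ℂ)
        * (x - 1) ^ ((i : ℤ) - 2 * (j + 1 : ℕ) + 1))
      ((j.choose i : ℂ) * (z - 1) ^ ((i : ℤ) - 2 * (j + 1 : ℕ))) z := by
    intro i hi
    have hi := Finset.mem_range.1 hi
    have hd : ((i : ℤ) - 2 * (j + 1 : ℕ) + 1) ≠ 0 := by push_cast; omega
    refine ((hasDerivAt_zpow_term h1' (((j + 1 - 1).choose i : ℂ)) _ _ rfl).comp z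
      ((hasDerivAt_id z).sub_const 1)).congr_deriv ?_
    rw [if_neg hd, mul_one, add_sub_cancel_right, Nat.add_sub_cancel]
  refine (HasDerivAt.fun_sum h).congr_deriv ?_
  have e : ∀ i ∈ range (j + 1), (j.choose i : ℂ) * (z - 1) ^ ((i : ℤ) - 2 * (j + 1 : ℕ))
      = (j.choose i : ℂ) * (z - 1) ^ i / (z - 1) ^ (2 * (j + 1)) := by
    intro i _
    rw [zpow_sub₀ h1', zpow_natCast, show (2 * ((j + 1 : ℕ) : ℤ)) = ((2 * (j + 1) : ℕ) : ℤ) by
      push_cast; ring, zpow_natCast, mul_div_assoc]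
  rw [Finset.sum_congr rfl e, ← Finset.sum_div,
    show ∑ i ∈ range (j + 1), (j.choose i : ℂ) * (z - 1) ^ i = z ^ j by
      conv_rhs => rw [show z = (z - 1) + 1 by ring, add_pow]
      refine Finset.sum_congr rfl fun i _ => ?_
      rw [one_pow]; ring]
  rw [show -((j : ℤ) + 1) = -((j + 1 : ℕ) : ℤ) by push_cast; rfl, zpow_neg, zpow_natCast, vv,
    div_pow, ← pow_mul, inv_div, pow_succ]
  field_simp

lemma hasDerivAt_Pr (h0 : z ≠ 0) (h1 : z ≠ 1) :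
    ∀ l : ℤ, HasDerivAt (Pr l) ((vv z ^ l - (rr l : ℂ)) / z) z
  | Int.ofNat l => hasDerivAt_Apr h0 l
  | Int.negSucc j => by
    have := hasDerivAt_Bpr h0 h1 j
    have e : (Int.negSucc j) = -((j : ℤ) + 1) := by omega
    simpa [Pr, rr, e] using this

lemma hasDerivAt_G (n k : ℕ) (h0 : z ≠ 0) (h1 : z ≠ 1) :
    HasDerivAt (G n k) (om n k z - (res n k : ℂ) / z) z := by
  have h : ∀ i ∈ range (3 * n + 1), HasDerivAt (fun x => (cf n i : ℂ) * Pr ((i : ℤ) + k - n) x)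
      ((cf n i : ℂ) * ((vv z ^ ((i : ℤ) + k - n) - (rr ((i : ℤ) + k - n) : ℂ)) / z)) z :=
    fun i _ => (hasDerivAt_Pr h0 h1 _).const_mul _
  refine (HasDerivAt.fun_sum h).congr_deriv ?_
  rw [om, eval_Kp_pow, res, Finset.sum_mul, Finset.sum_div, Int.cast_sum, Finset.sum_div,
    ← Finset.sum_sub_distrib]
  refine Finset.sum_congr rfl fun i _ => ?_
  rw [add_sub_assoc, zpow_add₀ (vv_ne_zero h0 h1), zpow_natCast]
  push_cast
  ring

end Vale.Agent.P021.Num
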