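import Vale.Agent.P021.Num.Forms

/-!
Forms of one level are combinations of forms of the next level, so some form never vanishes
at a given fraction.
-/

open Polynomial Finset Complex
open scoped Real

noncomputable section

namespace Vale.Agent.P021.Num

/-- the quadratic factor over `ℚ` -/
def Qrat : ℚ[X] := C 2 * X ^ 2 + C 14 * X + C 25

/-- the cubic over `ℚ` -/
def Cq : ℚ[X] := (X + C 4) * Qrat

def tq (N : ℚ) : ℚ[X] := C N * (X * (X + C 4) * derivative Qrat) + C (2 - 4 * N) * Qrat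

lemma derivative_Qrat : derivative Qrat = C 4 * X + C 14 := by
  rw [Qrat, derivative_add, derivative_add, derivative_C_mul_X_pow, derivative_C_mul, derivative_X,
    derivative_C, mul_one, add_zero]
  norm_num

lemma coprime_tq {N : ℚ} (hN : N ≠ 0) (hN' : 2 - 4 * N ≠ 0) : IsCoprime (tq N) Cq := by
  refine IsCoprime.mul_right ?_ ?_
  · refine ⟨C (1 / (2 - 4 * N)),
      -C (1 / (2 - 4 * N)) * (C N * X * derivative Qrat + C (2 - 4 * N) * (C 2 * X + C 6)), ?_⟩
    have : (C (1 / (2 - 4 * N)) * C (2 - 4 * N) : ℚ[X]) = 1 := by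
      rw [← C_mul, div_mul_cancel₀ _ hN', map_one]
    rw [tq, Qrat]
    simp only [map_ofNat] at *
    linear_combination this
  · have hQ : ∀ a b : ℚ[X], ∀ c : ℚ, c ≠ 0 → a * Qrat + b = C c → IsCoprime b Qrat := by
      intro a b c hc h
      refine ⟨C c⁻¹, C c⁻¹ * a, ?_⟩
      calc C c⁻¹ * b + C c⁻¹ * a * Qrat = C c⁻¹ * (a * Qrat + b) := by ring
        _ = 1 := by rw [h, ← C_mul, inv_mul_cancel₀ hc, map_one]
    have h1 : IsCoprime (X * C (-2) * X + X * C (-14)) Qrat := hQ 1 _ 25 (by norm_num) (by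
      simp only [Qrat, map_neg, map_ofNat]; ring)
    have hX : IsCoprime X Qrat := (show IsCoprime (X * (C (-2) * X + C (-14))) Qrat by
      rwa [mul_add, ← mul_assoc]).of_mul_left_left
    have h4' : IsCoprime ((X + C 4) * -(C 2 * X + C 6)) Qrat := hQ 1 _ 1 one_ne_zero (by
      simp only [Qrat, map_one, map_ofNat]; ring)
    have hd : IsCoprime (derivative Qrat * -(derivative Qrat)) Qrat := hQ 8 _ 4 (by norm_num) (by
      rw [derivative_Qrat]; simp only [Qrat, map_ofNat]; ring)
    have hN1 : IsCoprime (C N) Qrat := isCoprime_of_isUnit_left (isUnit_C.2 (isUnit_iff_ne_zero.2 hN))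
    exact IsCoprime.add_mul_right_left
      (hN1.mul_left ((hX.mul_left h4'.of_mul_left_left).mul_left hd.of_mul_left_left)) _
where
  isCoprime_of_isUnit_left {a b : ℚ[X]} (h : IsUnit a) : IsCoprime a b :=
    ⟨↑h.unit⁻¹, 0, by simp⟩

lemma exists_gW (N : ℚ) (hN : N ≠ 0) (hN' : 2 - 4 * N ≠ 0) (j : ℕ) (hj : j ≤ 3) :
    ∃ g W : ℚ[X], W.natDegree < 3 ∧
      X ^ j = Cq * W + (g * tq N + X * (X + C 4) * Qrat * derivative g) := by
  obtain ⟨a, b, hab⟩ := coprime_tq hN hN'
  refine ⟨(X ^ j * a) % Cq, X ^ j * b + (X ^ j * a / Cq) * tq N - X * derivative ((X ^ j * a) % Cq),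
    ?_, ?_⟩
  swap
  · have h := EuclideanDomain.mod_add_div (X ^ j * a) Cq
    rw [Cq] at *
    linear_combination -(X ^ j : ℚ[X]) * hab + -(tq N) * h
  generalize hW : X ^ j * b + (X ^ j * a / Cq) * tq N - X * derivative ((X ^ j * a) % Cq) = W
  generalize hg : (X ^ j * a) % Cq = g
  have hC0 : Cq.natDegree = 3 := by unfold Cq Qrat; compute_degree!
  have hCne : Cq ≠ 0 := ne_zero_of_natDegree_gt (n := 0) (by omega)
  have hgd : g.natDegree ≤ 2 := by
    rcases eq_or_ne g 0 with h | h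
    · simp [h]
    · have := EuclideanDomain.mod_lt (X ^ j * a) hCne
      rw [hg] at this
      have := natDegree_lt_natDegree h this
      omega
  have heq : Cq * W = X ^ j - (g * tq N + X * (X + C 4) * Qrat * derivative g) := by
    have h := EuclideanDomain.mod_add_div (X ^ j * a) Cq
    rw [hg] at h
    rw [← hW, hg]
    rw [Cq] at *
    linear_combination (X ^ j : ℚ[X]) * hab + tq N * h
  by_contra hc
  have hW0 : W ≠ 0 := ne_zero_of_natDegree_gt (n := 0) (by omega)
  have := natDegree_mul hCne hW0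
  have hd : (Cq * W).natDegree ≤ 5 := by
    rw [heq]
    have h1 : (derivative g).natDegree ≤ 1 := (natDegree_derivative_le g).trans (by omega)
    have h2 : (tq N).natDegree ≤ 3 := by unfold tq; rw [derivative_Qrat, Qrat]; compute_degree
    have h3 : (X * (X + C 4) * Qrat).natDegree ≤ 4 := by unfold Qrat; compute_degree
    refine (natDegree_sub_le _ _).trans (max_le ((natDegree_X_pow_le j).trans (by omega)) ?_)
    refine (natDegree_add_le _ _).trans (max_le ?_ ?_)
    · exact natDegree_mul_le.trans (by omega)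
    · exact natDegree_mul_le.trans (by omega)
  omega

lemma hasDerivAt_vv {z : ℂ} (h0 : z ≠ 0) :
    HasDerivAt vv ((z - 1 / z) / z) z := by
  have := (((hasDerivAt_id z).sub_const 1).pow 2).div (hasDerivAt_id z) h0
  refine this.congr_deriv ?_
  simp only [id_eq, Pi.pow_apply]; field_simp; ring

lemma hasDerivAt_exact (m : ℕ) (g : ℂ[X]) {z : ℂ} (h0 : z ≠ 0) (h1 : z ≠ 1)
    {Q K : ℂ[X]} (hK : K = (X + C 4) * Q) :
    HasDerivAt (fun x => (x - 1 / x) * ((K ^ m * Q * g).eval (vv x) / vv x ^ (m + 1)))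
      (K.eval (vv z) ^ m *
        (g * (C ((m : ℂ) + 1) * (X * (X + C 4) * derivative Q) + C (2 - 4 * ((m : ℂ) + 1)) * Q)
          + X * (X + C 4) * Q * derivative g).eval (vv z) / vv z ^ (m + 1) / z) z := by
  have hv := vv_ne_zero h0 h1
  have hN := ((K ^ m * Q * g).hasDerivAt (vv z)).div ((hasDerivAt_pow (m + 1) (vv z))) (pow_ne_zero _ hv)
  have hh := hN.comp z (hasDerivAt_vv h0)
  have ha : HasDerivAt (fun x : ℂ => x - 1 / x) ((vv z + 2) / z) z := by
    have := (hasDerivAt_id z).sub ((hasDerivAt_inv h0))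
    simp only [one_div]
    refine this.congr_deriv ?_
    rw [vv]; field_simp; ring
  refine (ha.mul hh).congr_deriv ?_
  have hsq : (z - 1 / z) * ((z - 1 / z) / z) = vv z * (vv z + 4) / z := by
    rw [vv]; field_simp; ring
  rw [mul_left_comm (z - 1 / z), hsq]
  have hKm : C (m : ℂ) * K ^ (m - 1) * K = C (m : ℂ) * K ^ m := by
    cases m with
    | zero => simp
    | succ m => rw [Nat.add_sub_cancel, pow_succ]; ring
  have key : (X + C 2) * (K ^ m * Q * g)
      + (X + C 4) * (X * derivative (K ^ m * Q * g) - C ((m : ℂ) + 1) * (K ^ m * Q * g))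
      = K ^ m * (g * (C ((m : ℂ) + 1) * (X * (X + C 4) * derivative Q)
          + C (2 - 4 * ((m : ℂ) + 1)) * Q) + X * (X + C 4) * Q * derivative g) := by
    have hKd : derivative K = Q + (X + C 4) * derivative Q := by
      rw [hK, derivative_mul, derivative_add, derivative_X, derivative_C, add_zero, one_mul]
    rw [derivative_mul, derivative_mul, derivative_pow, hKd]
    simp only [map_sub, map_add, map_mul, map_one, map_ofNat] at *
    have hKm' : C (m : ℂ) * K ^ (m - 1) * ((X + 4) * Q) = C (m : ℂ) * K ^ m := by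
      rw [← hK, hKm]
    linear_combination X * g * (Q + (X + 4) * derivative Q) * hKm'
  have key' := congrArg (fun p : ℂ[X] => p.eval (vv z)) key
  simp only [eval_mul, eval_add, eval_sub, eval_X, eval_C, eval_pow] at key' ⊢
  simp only [Function.comp]
  generalize hd : eval (vv z) (derivative (K ^ m * Q * g)) = dd at key' ⊢
  simp only [Pi.div_apply, eval_mul, eval_pow]
  field_simp
  push_cast
  simp only [Nat.add_sub_cancel, pow_succ]
  linear_combination (vv z ^ m * vv z) * key'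

lemma rat_eq_zero_of_pi {a b : ℚ} (h : (a : ℝ) = (b : ℝ) * (π / 2)) : a = 0 ∧ b = 0 := by
  by_cases hb : b = 0
  · subst hb; simp at h; exact ⟨by exact_mod_cast h, rfl⟩
  · exfalso
    refine irrational_pi.ne_rat (2 * a / b) ?_
    have : (b : ℝ) ≠ 0 := by exact_mod_cast hb
    push_cast
    rw [h]; field_simp

/-- each form of level `m` is a combination of the forms of level `m + 1` -/
lemma descent (m k : ℕ) (hk : k ≤ 2) :
    ∃ W : ℕ → ℚ, rho m k = ∑ l ∈ range 3, W l * rho (m + 1) l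
      ∧ (res m k : ℚ) = ∑ l ∈ range 3, W l * (res (m + 1) l : ℚ) := by
  have hN' : 2 - 4 * ((m : ℚ) + 1) ≠ 0 := by
    have : (0 : ℚ) ≤ m := Nat.cast_nonneg m
    intro h; linarith
  obtain ⟨g, W, hW, hid⟩ := exists_gW ((m : ℚ) + 1) (Nat.cast_add_one_ne_zero m) hN' (k + 1) (by omega)
  refine ⟨fun l => W.coeff l, ?_⟩
  set i : ℚ →+* ℂ := algebraMap ℚ ℂ
  set gc := g.map i
  have hQK : Kp.map (Int.castRingHom ℂ) = (X + C 4) * Qrat.map i := by
    simp [Kp, Qrat, map_ofNat]
  have hid' := congrArg (fun p : ℚ[X] => p.map i) hid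
  simp only [tq, Cq, Polynomial.map_mul, Polynomial.map_add, Polynomial.map_pow, map_X, map_C,
    ← derivative_map] at hid'
  rw [show i 4 = 4 from map_ofNat i 4, show i ((m : ℚ) + 1) = (m : ℂ) + 1 by simp [i],
    show i (2 - 4 * ((m : ℚ) + 1)) = 2 - 4 * ((m : ℂ) + 1) by simp [i], ← hQK] at hid'
  set E : ℝ → ℂ := fun s => (fun x => (x - 1 / x) * (((Kp.map (Int.castRingHom ℂ)) ^ m * Qrat.map i * gc).eval
      (vv x) / vv x ^ (m + 1))) (-1 + (s : ℂ) * I)
  set H : ℝ → ℂ := fun s => Fs m k s - (∑ l ∈ range 3, (W.coeff l : ℂ) * Fs (m + 1) l s) - E s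
  have hE : ∀ s : ℝ, HasDerivAt H 0 s := by
    intro s
    obtain ⟨h0, h1⟩ := seg_ne s
    have hEs := (hasDerivAt_exact m gc h0 h1 hQK).comp s (hasDerivAt_seg s)
    have hS : HasDerivAt (fun x => ∑ l ∈ range 3, (W.coeff l : ℂ) * Fs (m + 1) l x)
        (∑ l ∈ range 3, (W.coeff l : ℂ) * (I * om (m + 1) l (-1 + (s : ℂ) * I))) s :=
      HasDerivAt.fun_sum fun l _ => (hasDerivAt_Fs (m + 1) l s).const_mul _
    refine ((((hasDerivAt_Fs m k s).sub hS).sub hEs)).congr_deriv ?_
    set z := (-1 : ℂ) + (s : ℂ) * I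
    have hv := vv_ne_zero h0 h1
    have hev := congrArg (fun p : ℂ[X] => p.eval (vv z)) hid'
    have hWe : (W.map i).eval (vv z) = ∑ l ∈ range 3, (W.coeff l : ℂ) * vv z ^ l := by
      rw [eval_eq_sum_range' (n := 3) (natDegree_map_le.trans_lt hW)]
      exact Finset.sum_congr rfl fun l _ => by rw [coeff_map]; rfl
    have hsum : ∑ l ∈ range 3, (W.coeff l : ℂ) * (I * om (m + 1) l z)
        = I * (Kp.map (Int.castRingHom ℂ)).eval (vv z) ^ (m + 1) / vv z ^ (m + 1) / z
          * (W.map i).eval (vv z) := by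
      rw [hWe, Finset.mul_sum]
      refine Finset.sum_congr rfl fun l _ => ?_
      rw [om, zpow_sub₀ hv, zpow_natCast, zpow_natCast]; ring
    rw [hsum, om, zpow_sub₀ hv, zpow_natCast, zpow_natCast]
    simp only [eval_mul, eval_add, eval_pow, eval_X, eval_C] at hev ⊢
    field_simp
    simp only [pow_succ] at hev ⊢
    linear_combination (I * eval (vv z) (Kp.map (Int.castRingHom ℂ)) ^ m * vv z ^ m) * hev
  have hconst : H 1 = H (-1) :=
    is_const_of_deriv_eq_zero (fun s => (hE s).differentiableAt) (fun s => (hE s).deriv) 1 (-1)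
  have hE1 : ∀ s : ℝ, s ^ 2 = 1 → E s = 0 := by
    intro s hs
    obtain ⟨h0, h1⟩ := seg_ne s
    have : (Qrat.map i).eval (vv (-1 + (s : ℂ) * I)) = 0 := by
      have hs' : (s : ℂ) ^ 2 = 1 := by exact_mod_cast hs
      have hz : (-1 + (s : ℂ) * I) ^ 2 + 2 * (-1 + (s : ℂ) * I) + 2 = 0 := by
        linear_combination (s : ℂ) ^ 2 * I_sq - hs'
      simp only [Qrat, Polynomial.map_add, Polynomial.map_mul, Polynomial.map_pow, map_X, map_C,
        eval_add, eval_mul, eval_pow, eval_X, eval_C, vv]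
      simp only [map_ofNat]
      field_simp
      linear_combination (2 * (-1 + (s : ℂ) * I) ^ 2 + 2 * (-1 + (s : ℂ) * I) + 1) * hz
    simp [E, eval_mul, this]
  have hd : (lam m k : ℂ) = ∑ l ∈ range 3, (W.coeff l : ℂ) * (lam (m + 1) l : ℂ) := by
    have e : I * (lam m k : ℂ) - ∑ l ∈ range 3, (W.coeff l : ℂ) * (I * (lam (m + 1) l : ℂ)) = 0 := by
      rw [← Fs_diff m k hk]
      rw [Finset.sum_congr rfl fun l (hl : l ∈ range 3) => by
        rw [← Fs_diff (m + 1) l (by simp at hl; omega), mul_sub]]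
      rw [Finset.sum_sub_distrib]
      have h1 := hE1 1 (by norm_num)
      have h2 := hE1 (-1) (by norm_num)
      simp only [H, h1, h2] at hconst
      linear_combination hconst
    have e2 : I * ((lam m k : ℂ) - ∑ l ∈ range 3, (W.coeff l : ℂ) * (lam (m + 1) l : ℂ)) = 0 := by
      rw [mul_sub, Finset.mul_sum, ← e]
      congr 1
      exact Finset.sum_congr rfl fun l _ => by ring
    exact sub_eq_zero.1 ((mul_eq_zero.1 e2).resolve_left I_ne_zero)
  have hr : lam m k = ∑ l ∈ range 3, (W.coeff l : ℝ) * lam (m + 1) l := by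
    apply Complex.ofReal_injective
    push_cast; exact hd
  have hlin : ((rho m k - ∑ l ∈ range 3, W.coeff l * rho (m + 1) l : ℚ) : ℝ)
      = (((res m k : ℚ) - ∑ l ∈ range 3, W.coeff l * (res (m + 1) l : ℚ) : ℚ) : ℝ) * (π / 2) := by
    push_cast
    simp only [lam, Finset.sum_range_succ, Finset.sum_range_zero] at hr ⊢
    linarith
  obtain ⟨ha, hb⟩ := rat_eq_zero_of_pi hlin
  exact ⟨sub_eq_zero.1 ha, sub_eq_zero.1 hb⟩

lemma base_res : res 0 0 = 1 ∧ rho 0 0 = 0 := by
  have hr : res 0 0 = 1 := by simp [res, cf, rr]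
  refine ⟨hr, ?_⟩
  have h := G_diff 0 0 (by norm_num)
  have hG : ∀ z, G 0 0 z = 0 := fun z => by simp [G, cf, Pr, Apr]
  rw [hG, hG, sub_zero] at h
  have := (mul_eq_zero.1 h.symm).resolve_left I_ne_zero
  exact_mod_cast this

/-- the integer obtained from the form at a fraction -/
def Zint (p : ℤ) (q n k : ℕ) : ℤ := (q : ℤ) * Pi' n k - p * ((den n : ℤ) * res n k)

lemma Zint_cast (p : ℤ) (q n k : ℕ) :
    (Zint p q n k : ℚ) = (den n : ℚ) * (2 * (q : ℚ) * rho n k - (p : ℚ) * (res n k : ℚ)) := by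
  have : (den n : ℚ) ≠ 0 := Nat.cast_ne_zero.2 (Nat.lcmUpto_ne_zero _)
  rw [Zint, rho]; push_cast; field_simp

/-- nonvanishing -/
lemma exists_nonzero (p : ℤ) (q : ℕ) (hp : p ≠ 0) (n : ℕ) : ∃ k ≤ 2, Zint p q n k ≠ 0 := by
  by_contra hc
  push Not at hc
  have hden : ∀ m, (den m : ℚ) ≠ 0 := fun m => Nat.cast_ne_zero.2 (Nat.lcmUpto_ne_zero _)
  have key : ∀ d k, k ≤ 2 → d ≤ n → 2 * (q : ℚ) * rho (n - d) k - (p : ℚ) * (res (n - d) k : ℚ) = 0 := by
    intro d
    induction d with
    | zero =>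
      intro k hk _
      have := hc k hk
      have h : (Zint p q n k : ℚ) = 0 := by rw [this]; simp
      rw [Zint_cast] at h
      exact (mul_eq_zero.1 h).resolve_left (hden n)
    | succ d ih =>
      intro k hk hd
      obtain ⟨W, hr, hs⟩ := descent (n - (d + 1)) k hk
      have e : n - (d + 1) + 1 = n - d := by omega
      rw [e] at hr hs
      rw [hr, hs]
      simp only [Finset.sum_range_succ, Finset.sum_range_zero]
      linear_combination W 0 * ih 0 (by omega) (by omega) + W 1 * ih 1 (by omega) (by omega)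
        + W 2 * ih 2 (by omega) (by omega)
  have h := key n 0 (by norm_num) le_rfl
  rw [Nat.sub_self, base_res.1, base_res.2] at h
  simp at h; exact hp h

end Vale.Agent.P021.Num
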