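import Vale.Agent.P021.Num.RatPart

/-!
The linear forms in `1` and `π`, with their bounds.
-/

open Polynomial Finset Complex Metric
open scoped Real

noncomputable section

namespace Vale.Agent.P021.Num

lemma exists_int (n k : ℕ) : ∃ P : ℤ, k ≤ 2 →
    Tv n k gb - Tv n k ga = (P : ℂ) ∧ (2 : ℤ) ^ (n - 3) ∣ P := by
  by_cases hk : k ≤ 2
  · obtain ⟨P, h⟩ := exists_P n k hk; exact ⟨P, fun _ => h⟩
  · exact ⟨0, fun h => absurd h hk⟩

/-- the integer constant term -/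
def Pi' (n k : ℕ) : ℤ := (exists_int n k).choose

lemma Pi'_spec (n k : ℕ) (hk : k ≤ 2) :
    Tv n k gb - Tv n k ga = (Pi' n k : ℂ) ∧ (2 : ℤ) ^ (n - 3) ∣ Pi' n k :=
  (exists_int n k).choose_spec hk

lemma den_ne (n : ℕ) : (den n : ℂ) ≠ 0 := Nat.cast_ne_zero.2 (Nat.lcmUpto_ne_zero _)

/-- the rational constant term -/
def rho (n k : ℕ) : ℚ := (Pi' n k : ℚ) / (2 * (den n : ℚ))

/-- the linear form -/
def lam (n k : ℕ) : ℝ := (rho n k : ℝ) - (res n k : ℝ) * (π / 2)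

/-- the primitive along the segment -/
def Fs (n k : ℕ) (s : ℝ) : ℂ :=
  G n k (-1 + (s : ℂ) * I) + (res n k : ℂ) * Complex.log (1 - (s : ℂ) * I)

lemma seg_ne (s : ℝ) : (-1 + (s : ℂ) * I) ≠ 0 ∧ (-1 + (s : ℂ) * I) ≠ 1 := by
  constructor <;> intro h <;> have := congrArg Complex.re h <;> simp at this <;> norm_num at this

lemma hasDerivAt_seg (s : ℝ) : HasDerivAt (fun x : ℝ => -1 + (x : ℂ) * I) I s := by
  simpa using ((hasDerivAt_id s).ofReal_comp.mul_const I).const_add (-1)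

lemma hasDerivAt_Fs (n k : ℕ) (s : ℝ) :
    HasDerivAt (Fs n k) (I * om n k (-1 + (s : ℂ) * I)) s := by
  obtain ⟨h0, h1⟩ := seg_ne s
  have hl : HasDerivAt (fun x : ℝ => 1 - (x : ℂ) * I) (-I) s := by
    simpa using ((hasDerivAt_id s).ofReal_comp.mul_const I).const_sub 1
  have hlog := (hl.clog_real (Or.inl (by simp))).const_mul (res n k : ℂ)
  have hG := (hasDerivAt_G n k h0 h1).comp s (hasDerivAt_seg s)
  refine (hG.add hlog).congr_deriv ?_
  have hne : (1 : ℂ) - (s : ℂ) * I ≠ 0 := by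
    intro h; have := congrArg Complex.re h; simp at this
  rw [show (-1 : ℂ) + (s : ℂ) * I = -(1 - (s : ℂ) * I) by ring, div_neg, neg_div]
  ring

lemma log_diff : Complex.log (1 - I) - Complex.log (1 + I) = -(I * ((π / 2 : ℝ) : ℂ)) := by
  have h1 : (1 : ℂ) + I = ((Real.sqrt 2 : ℝ) : ℂ) *
      (Complex.cos ((π / 4 : ℝ) : ℂ) + Complex.sin ((π / 4 : ℝ) : ℂ) * I) := by
    rw [← Complex.ofReal_cos, ← Complex.ofReal_sin, Real.cos_pi_div_four, Real.sin_pi_div_four]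
    apply Complex.ext <;> simp <;> ring_nf <;> simp [Real.sq_sqrt]
  have ha : Complex.arg (1 + I) = π / 4 := by
    rw [h1]
    exact arg_mul_cos_add_sin_mul_I (Real.sqrt_pos.2 two_pos)
      ⟨by linarith [Real.pi_pos], by linarith [Real.pi_pos]⟩
  have hne : Complex.arg (1 + I) ≠ π := by rw [ha]; linarith [Real.pi_pos]
  have hc : Complex.log (1 - I) = (starRingEnd ℂ) (Complex.log (1 + I)) := by
    rw [← Complex.log_conj _ hne]; congr 1; simp [sub_eq_add_neg]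
  rw [hc]
  apply Complex.ext
  · simp
  · simp [Complex.log_im, ha]; ring

lemma G_diff (n k : ℕ) (hk : k ≤ 2) :
    G n k ga - G n k gb = I * ((rho n k : ℝ) : ℂ) := by
  have h := (Pi'_spec n k hk).1
  simp only [Tv] at h
  have := den_ne n
  rw [rho]; push_cast
  field_simp
  linear_combination I * h - ((den n : ℂ) * (G n k gb - G n k ga) * (2 + I)) * I_sq

lemma Fs_diff (n k : ℕ) (hk : k ≤ 2) : Fs n k 1 - Fs n k (-1) = I * (lam n k : ℂ) := by
  have hG := G_diff n k hk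
  rw [ga, gb] at hG
  rw [Fs, Fs, lam]
  push_cast
  rw [one_mul, neg_one_mul, ← sub_eq_add_neg, sub_neg_eq_add]
  have := log_diff
  push_cast at this
  linear_combination hG + (res n k : ℂ) * this

lemma norm_Kp_le {z : ℂ} (h0 : z ≠ 0) :
    (Kp.map (Int.castRingHom ℂ)).eval (vv z)
      = (z + 1) ^ 2 * (2 * z ^ 2 + 2 * z + 1) * (z ^ 2 + 2 * z + 2) / z ^ 3 := by
  simp only [Kp, vv, Polynomial.map_mul, Polynomial.map_add, map_X, Polynomial.map_pow, eval_mul,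
      eval_add, eval_X, eval_pow, eq_intCast, Polynomial.map_ofNat, eval_ofNat, Int.cast_ofNat]
  field_simp
  ring

lemma om_eq (n k : ℕ) {z : ℂ} (h0 : z ≠ 0) (h1 : z ≠ 1) :
    om n k z = ((z + 1) ^ 2 * (2 * z ^ 2 + 2 * z + 1) * (z ^ 2 + 2 * z + 2)
        / (z ^ 2 * (z - 1) ^ 2)) ^ n * vv z ^ k / z := by
  rw [om, norm_Kp_le h0, zpow_sub₀ (vv_ne_zero h0 h1), zpow_natCast, zpow_natCast,
    mul_div_assoc', mul_comm _ (vv z ^ k), mul_div_assoc, ← div_pow, mul_comm (vv z ^ k)]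
  congr 2
  have := sub_ne_zero.2 h1
  rw [vv]; field_simp

lemma vv_bound_seg {s : ℝ} (hs : s ^ 2 ≤ 1) : ‖vv (-1 + (s : ℂ) * I)‖ ≤ 5 := by
  have hn : ‖(-1 + (s : ℂ) * I)‖ ^ 2 = 1 + s ^ 2 := by
    rw [← Complex.normSq_eq_norm_sq]; simp [normSq_apply]; ring
  have hm : ‖(-1 + (s : ℂ) * I) - 1‖ ^ 2 = 4 + s ^ 2 := by
    rw [← Complex.normSq_eq_norm_sq]; simp [normSq_apply]; ring
  have h1 : 1 ≤ ‖(-1 + (s : ℂ) * I)‖ := by
    nlinarith [norm_nonneg (-1 + (s : ℂ) * I), sq_nonneg s]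
  rw [vv, norm_div, norm_pow, hm, div_le_iff₀ (by linarith)]
  nlinarith

lemma base_bound_seg {s : ℝ} (hs : s ^ 2 ≤ 1) :
    ‖((-1 + (s : ℂ) * I + 1) ^ 2 * (2 * (-1 + (s : ℂ) * I) ^ 2 + 2 * (-1 + (s : ℂ) * I) + 1)
      * ((-1 + (s : ℂ) * I) ^ 2 + 2 * (-1 + (s : ℂ) * I) + 2))
        / ((-1 + (s : ℂ) * I) ^ 2 * ((-1 + (s : ℂ) * I) - 1) ^ 2)‖ ≤ 21 / 400 := by
  obtain ⟨h0, h1⟩ := seg_ne s
  have hd : 0 < ‖(-1 + (s : ℂ) * I) ^ 2 * ((-1 + (s : ℂ) * I) - 1) ^ 2‖ :=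
    norm_pos_iff.2 (mul_ne_zero (pow_ne_zero _ h0) (pow_ne_zero _ (sub_ne_zero.2 h1)))
  rw [norm_div, div_le_iff₀ hd]
  refine pow_le_pow_iff_left₀ (norm_nonneg _) (by positivity) (two_ne_zero) |>.1 ?_
  rw [mul_pow, ← Complex.normSq_eq_norm_sq, ← Complex.normSq_eq_norm_sq]
  simp only [map_mul, map_pow]
  have a : normSq (-1 + (s : ℂ) * I + 1) = s ^ 2 := by simp [normSq_apply]; ring
  have b : normSq (2 * (-1 + (s : ℂ) * I) ^ 2 + 2 * (-1 + (s : ℂ) * I) + 1) = 1 + 4 * (s ^ 2) ^ 2 := by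
    simp [normSq_apply, pow_two]; ring
  have c : normSq ((-1 + (s : ℂ) * I) ^ 2 + 2 * (-1 + (s : ℂ) * I) + 2) = (1 - s ^ 2) ^ 2 := by
    simp [normSq_apply, pow_two]; ring
  have d : normSq (-1 + (s : ℂ) * I) = 1 + s ^ 2 := by simp [normSq_apply]; ring
  have e : normSq (-1 + (s : ℂ) * I - 1) = 4 + s ^ 2 := by simp [normSq_apply]; ring
  rw [a, b, c, d, e]
  exact poly_ineq (sq_nonneg s) hs
where
  poly_ineq {u : ℝ} (h0 : 0 ≤ u) (h1 : u ≤ 1) :
      u ^ 2 * (1 + 4 * u ^ 2) * (1 - u) ^ 2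
        ≤ (21 / 400) ^ 2 * ((1 + u) ^ 2 * (4 + u) ^ 2) := by
    have key : u * (1 - u) * ((1 + 4 * u ^ 2) * (500 / 717) + 717 / 500) / 2
        ≤ 21 / 400 * ((1 + u) * (4 + u)) := by
      nlinarith [sq_nonneg (u - 257/500), mul_nonneg h0 (sub_nonneg.2 h1),
        mul_nonneg (mul_nonneg h0 (sub_nonneg.2 h1)) (sq_nonneg (u - 257/500)),
        mul_nonneg h0 (sq_nonneg (u - 257/500)), sq_nonneg ((u - 257/500) * (u + 1))]
    have h2 : 1 + 4 * u ^ 2 ≤ (((1 + 4 * u ^ 2) * (500 / 717) + 717 / 500) / 2) ^ 2 := by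
      nlinarith [sq_nonneg ((1 + 4 * u ^ 2) * (500 / 717) - 717 / 500)]
    have hp : 0 ≤ u * (1 - u) := mul_nonneg h0 (sub_nonneg.2 h1)
    calc u ^ 2 * (1 + 4 * u ^ 2) * (1 - u) ^ 2 = (u * (1 - u)) ^ 2 * (1 + 4 * u ^ 2) := by ring
      _ ≤ (u * (1 - u)) ^ 2 * (((1 + 4 * u ^ 2) * (500 / 717) + 717 / 500) / 2) ^ 2 := by gcongr
      _ = (u * (1 - u) * ((1 + 4 * u ^ 2) * (500 / 717) + 717 / 500) / 2) ^ 2 := by ring
      _ ≤ (21 / 400 * ((1 + u) * (4 + u))) ^ 2 := pow_le_pow_left₀ (by positivity) key 2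
      _ = (21 / 400) ^ 2 * ((1 + u) ^ 2 * (4 + u) ^ 2) := by ring

/-- the forms are small -/
lemma abs_lam_le (n k : ℕ) (hk : k ≤ 2) : |lam n k| ≤ 50 * (21 / 400) ^ n := by
  have hb : ∀ s ∈ Set.Ico (-1 : ℝ) 1, ‖I * om n k (-1 + (s : ℂ) * I)‖ ≤ 25 * (21 / 400) ^ n := by
    intro s hs
    have hs2 : s ^ 2 ≤ 1 := by nlinarith [hs.1, hs.2]
    obtain ⟨h0, h1⟩ := seg_ne s
    have h : 1 ≤ ‖(-1 + (s : ℂ) * I)‖ := by
      have := Complex.abs_re_le_norm (-1 + (s : ℂ) * I); simpa using this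
    rw [norm_mul, Complex.norm_I, one_mul, om_eq n k h0 h1, norm_div, norm_mul, norm_pow, norm_pow]
    refine (div_le_self (by positivity) h).trans ?_
    rw [mul_comm (25 : ℝ)]
    refine mul_le_mul (pow_le_pow_left₀ (norm_nonneg _) (base_bound_seg hs2) n) ?_ (by positivity)
      (by positivity)
    calc ‖vv (-1 + (s : ℂ) * I)‖ ^ k ≤ 5 ^ k := pow_le_pow_left₀ (norm_nonneg _) (vv_bound_seg hs2) k
      _ ≤ 5 ^ 2 := pow_le_pow_right₀ (by norm_num) hk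
      _ = 25 := by norm_num
  have h := norm_image_sub_le_of_norm_deriv_le_segment'
    (fun x _ => (hasDerivAt_Fs n k x).hasDerivWithinAt) hb 1 (Set.right_mem_Icc.2 (by norm_num))
  rw [Fs_diff n k hk, norm_mul, Complex.norm_I, one_mul, Complex.norm_real, Real.norm_eq_abs] at h
  linarith

/-- the residues are not too big -/
lemma abs_res_le (n k : ℕ) (hk : k ≤ 2) : |(res n k : ℝ)| ≤ 36 * 183 ^ n := by
  have hR : (0 : ℝ) ≤ 7 / 25 := by norm_num
  have hz : ∀ z ∈ sphere (0 : ℂ) (7 / 25), z ≠ 0 ∧ z ≠ 1 := by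
    intro z hz
    rw [mem_sphere_zero_iff_norm] at hz
    constructor <;> intro h <;> rw [h] at hz <;> simp at hz <;> norm_num at hz
  have h0 : (∮ z in C(0, (7 : ℝ) / 25), (om n k z - (res n k : ℂ) / z)) = 0 :=
    circleIntegral.integral_eq_zero_of_hasDerivWithinAt hR fun z hzm =>
      (hasDerivAt_G n k (hz z hzm).1 (hz z hzm).2).hasDerivWithinAt
  have hc2 : ContinuousOn (fun z : ℂ => (res n k : ℂ) / z) (sphere 0 (7 / 25)) :=
    continuousOn_const.div continuousOn_id fun z hzm => (hz z hzm).1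
  have hc1 : ContinuousOn (om n k) (sphere 0 (7 / 25)) := by
    have : ContinuousOn vv (sphere (0 : ℂ) (7 / 25)) :=
      ContinuousOn.div (by fun_prop) continuousOn_id fun z hzm => (hz z hzm).1
    unfold om
    refine ContinuousOn.div (ContinuousOn.mul ?_ (this.zpow₀ _ fun z hzm =>
      Or.inl (vv_ne_zero (hz z hzm).1 (hz z hzm).2))) continuousOn_id fun z hzm => (hz z hzm).1
    exact ((Polynomial.continuous _).comp_continuousOn this).pow n
  rw [circleIntegral.integral_sub (hc1.circleIntegrable hR) (hc2.circleIntegrable hR),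
    show (∮ z in C(0, (7 : ℝ) / 25), (res n k : ℂ) / z) = (res n k : ℂ) * (2 * π * I) by
      have h := circleIntegral.integral_sub_center_inv (0 : ℂ) (show (7 : ℝ) / 25 ≠ 0 by norm_num)
      simp only [sub_zero] at h
      rw [← h, ← circleIntegral.integral_const_mul]
      simp only [div_eq_mul_inv],
    sub_eq_zero] at h0
  have hb : ∀ z ∈ sphere (0 : ℂ) (7 / 25), ‖om n k z‖ ≤ 36 * 183 ^ n * (25 / 7) := by
    intro z hzm
    obtain ⟨hz0, hz1⟩ := hz z hzm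
    have hn : ‖z‖ = 7 / 25 := mem_sphere_zero_iff_norm.1 hzm
    have hm : 18 / 25 ≤ ‖z - 1‖ := by
      have := norm_sub_norm_le (1 : ℂ) z
      rw [norm_sub_rev] at this; rw [norm_one, hn] at this; linarith
    have ha : ‖z + 1‖ ≤ 32 / 25 := (norm_add_le _ _).trans (by rw [hn, norm_one]; norm_num)
    have hb : ‖2 * z ^ 2 + 2 * z + 1‖ ≤ 2 * (7/25) ^ 2 + 2 * (7/25) + 1 :=
      (norm_add₃_le).trans (by simp [hn])
    have hc : ‖z ^ 2 + 2 * z + 2‖ ≤ (7/25) ^ 2 + 2 * (7/25) + 2 :=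
      (norm_add₃_le).trans (by simp [hn])
    rw [om_eq n k hz0 hz1, norm_div, norm_mul, norm_pow, norm_pow, norm_div, norm_mul, norm_mul,
      norm_mul, norm_pow, norm_pow, norm_pow, hn]
    rw [show (36 : ℝ) * 183 ^ n * (25 / 7) = 183 ^ n * 36 / (7 / 25) by ring]
    refine div_le_div_of_nonneg_right (mul_le_mul (pow_le_pow_left₀ (by positivity) ?_ n) ?_
      (by positivity) (by positivity)) hR
    · calc _ ≤ (32/25 : ℝ) ^ 2 * (2 * (7/25) ^ 2 + 2 * (7/25) + 1) * ((7/25) ^ 2 + 2 * (7/25) + 2)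
            / ((7/25) ^ 2 * (18/25) ^ 2) := by
              gcongr
        _ ≤ 183 := by norm_num
    · have hv : ‖vv z‖ ≤ 6 := by
        have h1 : ‖z - 1‖ ≤ 32 / 25 := (norm_sub_le _ _).trans (by rw [hn, norm_one]; norm_num)
        rw [vv, norm_div, norm_pow, hn, div_le_iff₀ (by norm_num)]
        nlinarith [norm_nonneg (z - 1)]
      calc ‖vv z‖ ^ k ≤ 6 ^ k := pow_le_pow_left₀ (norm_nonneg _) hv k
        _ ≤ 6 ^ 2 := pow_le_pow_right₀ (by norm_num) hk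
        _ = 36 := by norm_num
  have h := circleIntegral.norm_integral_le_of_norm_le_const hR hb
  rw [h0, norm_mul, norm_mul, norm_mul, Complex.norm_intCast, Complex.norm_I, Complex.norm_real,
    Real.norm_eq_abs, abs_of_pos Real.pi_pos, Complex.norm_two, mul_one] at h
  have := Real.pi_pos
  nlinarith

end Vale.Agent.P021.Num
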