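import Vale.Agent.P021.Num.Coeff

/-!
Truncated logarithm evaluated at `-1+I`: it is 2-adically small.
-/

open Polynomial Finset Complex

noncomputable section

namespace Vale.Agent.P021.Num

/-- `d` times the truncated series of `log (1 + X)` -/
def Lt (d : ℂ) (M : ℕ) : ℂ[X] :=
  ∑ m ∈ range M, C (d * ((-1 : ℂ) ^ (m + 1) / (m : ℂ))) * X ^ m

lemma coeff_Lt_zero (d : ℂ) (M : ℕ) : (Lt d M).coeff 0 = 0 := by
  rw [Lt, finsetSum_coeff]
  refine Finset.sum_eq_zero fun m _ => ?_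
  rw [coeff_C_mul_X_pow]
  split
  · next h => subst h; simp
  · rfl

lemma derivative_Lt (d : ℂ) (M : ℕ) :
    (1 + X) * derivative (Lt d (M + 1)) = C d * (1 - (-X) ^ M) := by
  have h : derivative (Lt d (M + 1)) = C d * ∑ m ∈ range M, (-X) ^ m := by
    rw [Lt, derivative_sum, Finset.sum_range_succ']
    simp only [derivative_C_mul_X_pow, Nat.cast_zero, div_zero, mul_zero, map_zero, zero_mul,
      add_zero]
    rw [Finset.mul_sum]
    refine Finset.sum_congr rfl fun m _ => ?_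
    have : ((m + 1 : ℕ) : ℂ) ≠ 0 := Nat.cast_ne_zero.2 (by omega)
    rw [show d * ((-1 : ℂ) ^ (m + 1 + 1) / ((m + 1 : ℕ) : ℂ)) * ((m + 1 : ℕ) : ℂ) = d * (-1) ^ m by
      field_simp; ring, Nat.add_sub_cancel, map_mul, map_pow, map_neg, map_one, neg_pow (X : ℂ[X]) m]
    ring
  rw [h, mul_left_comm, ← mul_neg_geom_sum (-X : ℂ[X]) M, sub_neg_eq_add]

lemma dvd_of_derivative_dvd {p : ℂ[X]} {M : ℕ} (h0 : p.coeff 0 = 0)
    (h : X ^ M ∣ derivative p) : X ^ (M + 1) ∣ p := by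
  rw [X_pow_dvd_iff] at h ⊢
  intro m hm
  cases m with
  | zero => exact h0
  | succ m =>
    have := h m (by omega)
    rw [coeff_derivative] at this
    rcases mul_eq_zero.1 this with h' | h'
    · exact h'
    · exact absurd h' (Nat.cast_add_one_ne_zero m)

lemma dvd_of_mul_unit {p q : ℂ[X]} {M : ℕ} (hq : q.coeff 0 ≠ 0) (h : X ^ M ∣ q * p) : X ^ M ∣ p := by
  have : ¬ (X : ℂ[X]) ∣ q := by rw [X_dvd_iff]; exact hq
  exact Prime.pow_dvd_of_dvd_mul_left prime_X M this h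

lemma eval_mem_of_lifts {p : ℂ[X]} (h : p ∈ Polynomial.lifts GI.subtype) {x : ℂ} (hx : x ∈ GI) :
    p.eval x ∈ GI := by
  rw [eval_eq_sum_range]
  exact sum_mem fun i _ => mul_mem (coeff_mem_of_lifts h i) (pow_mem hx i)

/-- quotient by `X^M` keeps coefficients in `GI` -/
lemma eval_of_X_pow_dvd {p : ℂ[X]} {M : ℕ} (hd : X ^ M ∣ p)
    (h : p ∈ Polynomial.lifts GI.subtype) {x : ℂ} (hx : x ∈ GI) :
    ∃ a ∈ GI, p.eval x = x ^ M * a := by
  obtain ⟨q, rfl⟩ := hd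
  refine ⟨q.eval x, ?_, by simp⟩
  refine eval_mem_of_lifts ?_ hx
  rw [lifts_iff_coeff_lifts]
  intro i
  refine ⟨⟨q.coeff i, ?_⟩, rfl⟩
  have := coeff_mem_of_lifts h (i + M)
  rwa [coeff_X_pow_mul] at this

lemma Lt_lifts {d : ℂ} {M : ℕ} (hd : ∀ m < M, d / (m : ℂ) ∈ GI) :
    Lt d M ∈ Polynomial.lifts GI.subtype := by
  refine sum_mem fun m hm => mul_mem (C_mem_lifts ?_) (pow_mem X_mem_lifts' m)
  have := mul_mem (hd m (Finset.mem_range.1 hm)) (pow_mem (neg_mem (one_mem GI)) (m + 1))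
  convert this using 1
  ring

lemma sub_mem_lifts {p q : ℂ[X]} (hp : p ∈ Polynomial.lifts GI.subtype)
    (hq : q ∈ Polynomial.lifts GI.subtype) : p - q ∈ Polynomial.lifts GI.subtype := by
  obtain ⟨a, ha⟩ := (mem_lifts _).1 hp
  obtain ⟨b, hb⟩ := (mem_lifts _).1 hq
  exact (mem_lifts _).2 ⟨a - b, by rw [Polynomial.map_sub, ha, hb]⟩

lemma comp_mem_lifts {p q : ℂ[X]} (hp : p ∈ Polynomial.lifts GI.subtype)
    (hq : q ∈ Polynomial.lifts GI.subtype) : p.comp q ∈ Polynomial.lifts GI.subtype := by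
  obtain ⟨a, ha⟩ := (mem_lifts _).1 hp
  obtain ⟨b, hb⟩ := (mem_lifts _).1 hq
  exact (mem_lifts _).2 ⟨a.comp b, by rw [Polynomial.map_comp, ha, hb]⟩

lemma Lt_eval_small {d : ℂ} {M : ℕ} (hd : ∀ m < M + 1, d / (m : ℂ) ∈ GI) :
    ∃ a ∈ GI, 4 * (Lt d (M + 1)).eval (-1 + I) = (-1 + I) ^ (M + 1) * a := by
  set q : ℂ[X] := (1 + X) ^ 4 - 1 with hqdef
  have hq0 : q.coeff 0 = 0 := by simp [hqdef, coeff_zero_eq_eval_zero]
  have hql : q ∈ Polynomial.lifts GI.subtype :=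
    sub_mem_lifts (pow_mem (add_mem (one_mem _) X_mem_lifts') 4) (one_mem _)
  obtain ⟨Q, hQ⟩ := X_dvd_iff.2 hq0
  set R : ℂ[X] := C 4 * Lt d (M + 1) - (Lt d (M + 1)).comp q with hR
  have hR0 : R.coeff 0 = 0 := by
    rw [hR, coeff_sub, coeff_C_mul, coeff_Lt_zero, coeff_zero_eq_eval_zero, eval_comp,
      ← coeff_zero_eq_eval_zero q, hq0, ← coeff_zero_eq_eval_zero, coeff_Lt_zero]
    ring
  have h1 : (1 + X) * derivative R = C (4 * d) * ((-q) ^ M - (-X) ^ M) := by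
    have e1 := derivative_Lt d M
    have e2 : (1 + q) * (derivative (Lt d (M + 1))).comp q = C d * (1 - (-q) ^ M) := by
      have := congrArg (fun p => p.comp q) e1
      simpa [mul_comp, add_comp, sub_comp, pow_comp, neg_comp] using this
    have e3 : derivative q = C 4 * (1 + X) ^ 3 := by
      simp [hqdef, derivative_pow]
    rw [hR, derivative_sub, derivative_C_mul, derivative_comp, e3, map_mul]
    have e4 : (1 + q : ℂ[X]) = (1 + X) ^ 4 := by rw [hqdef]; ring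
    rw [e4] at e2
    linear_combination C 4 * e1 - C 4 * e2
  have h2 : X ^ M ∣ derivative R := by
    refine dvd_of_mul_unit (q := 1 + X) (by simp) ?_
    rw [h1]
    refine Dvd.dvd.mul_left (dvd_sub ?_ ?_) _
    · rw [neg_pow, hQ, mul_pow]
      exact ⟨(-1) ^ M * Q ^ M, by ring⟩
    · rw [neg_pow]; exact dvd_mul_left _ _
  have hlift := Lt_lifts hd
  have hRl : R ∈ Polynomial.lifts GI.subtype := by
    exact sub_mem_lifts (mul_mem (C_mem_lifts (intCast_mem GI 4)) hlift) (comp_mem_lifts hlift hql)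
  obtain ⟨a, ha, hev⟩ := eval_of_X_pow_dvd (dvd_of_derivative_dvd hR0 h2) hRl
    (add_mem (neg_mem (one_mem GI)) I_mem_GI)
  refine ⟨a, ha, ?_⟩
  rw [← hev, hR, eval_sub, eval_mul, eval_C, eval_comp]
  have : q.eval (-1 + I) = 0 := by
    rw [hqdef]; simp only [eval_sub, eval_pow, eval_add, eval_one, eval_X]
    linear_combination (I ^ 2 - 1) * I_sq
  rw [this, ← coeff_zero_eq_eval_zero, coeff_Lt_zero, sub_zero]

end Vale.Agent.P021.Num
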