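import Vale.Agent.P021.Num.Deriv
import Vale.Agent.P021.Num.LogSeries

/-!
The rational part is divisible by a power of two.
-/

open Polynomial Finset Complex
open scoped ComplexConjugate Topology

noncomputable section

namespace Vale.Agent.P021.Num

/-- scaled antiderivative -/
def Tv (n k : ℕ) (z : ℂ) : ℂ := (1 + I) ^ 2 * (den n : ℂ) * G n k z

def ze (e : ℂ) : ℂ := (1 + I) * (I + e)

def del : ℂ := -1 - I

lemma ze_zero : ze 0 = ga := by rw [ze, ga]; linear_combination I_sq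

lemma ze_del : ze del = gb := by rw [ze, del, gb]; ring

/-- the good parameters -/
def Good (e : ℂ) : Prop := I + e ≠ 0 ∧ ze e ≠ 1

lemma good_zero : Good 0 := by
  refine ⟨by simp, fun h => ?_⟩
  rw [ze_zero, ga] at h; simpa using congrArg Complex.im h

lemma good_del : Good del := by
  refine ⟨fun h => ?_, fun h => ?_⟩
  · simpa [del] using congrArg Complex.re h
  · rw [ze_del, gb] at h; simpa using congrArg Complex.im h

lemma Good.ze_ne_zero {e : ℂ} (h : Good e) : ze e ≠ 0 := mul_ne_zero one_add_I_ne h.1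

lemma infinite_good : {e : ℂ | Good e}.Infinite := by
  have h : ({e : ℂ | Good e}ᶜ : Set ℂ) ⊆ {-I, 1 / (1 + I) - I} := by
    intro e he
    simp only [Set.mem_compl_iff, Set.mem_setOf_eq, Good, not_and_or, not_not] at he
    rcases he with h | h
    · exact Or.inl (by linear_combination h)
    · refine Or.inr ?_
      rw [Set.mem_singleton_iff, eq_sub_iff_add_eq, eq_div_iff one_add_I_ne]
      rw [ze] at h; linear_combination h
  exact compl_compl ({e : ℂ | Good e}) ▸ (Set.Finite.subset (Set.toFinite _) h).infinite_compl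

lemma isOpen_good : IsOpen {e : ℂ | Good e} := by
  refine IsOpen.inter ?_ ?_
  · exact isOpen_ne_fun (by fun_prop) (by fun_prop)
  · exact isOpen_ne_fun (by unfold ze; fun_prop) (by fun_prop)

def Yp : ℂ[X] := C I + X

def Zp : ℂ[X] := C (1 + I) * Yp

def Vp (n : ℕ) : ℂ[X] := Yp ^ (2 * n + 3) * (Zp - 1) ^ (2 * n)

lemma eval_Yp (e : ℂ) : Yp.eval e = I + e := by simp [Yp]

lemma eval_Zp (e : ℂ) : Zp.eval e = ze e := by simp [Zp, ze, eval_Yp]

lemma Yp_lifts : Yp ∈ Polynomial.lifts GI.subtype := add_mem (C_mem_lifts I_mem_GI) X_mem_lifts'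

lemma Zp_lifts : Zp ∈ Polynomial.lifts GI.subtype := mul_mem (C_mem_lifts one_add_I_mem) Yp_lifts

lemma Zp_sub_one_lifts : Zp - 1 ∈ Polynomial.lifts GI.subtype := sub_mem_lifts Zp_lifts (one_mem _)

lemma exists_U (n k : ℕ) (hk : k ≤ 2) :
    ∃ U ∈ Polynomial.lifts GI.subtype, ∀ e, Good e → U.eval e = Tv n k (ze e) * (Vp n).eval e := by
  have term : ∀ i ∈ range (3 * n + 1), ∃ U ∈ Polynomial.lifts GI.subtype, ∀ e, Good e →
      U.eval e = (1 + I) ^ 2 * (den n : ℂ) * ((cf n i : ℂ) * Pr ((i : ℤ) + k - n) (ze e))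
        * (Vp n).eval e := by
    intro i hi
    have hi := Finset.mem_range.1 hi
    generalize hl : (i : ℤ) + k - n = l
    cases l with
    | ofNat l =>
      simp only [Int.ofNat_eq_natCast] at hl
      refine ⟨∑ j ∈ range (2 * l + 1), C ((1 + I) ^ 2 * (den n : ℂ) * (cf n i : ℂ) *
        (((2 * l).choose j : ℂ) * (-1) ^ j / (((j : ℤ) - l : ℤ) : ℂ)) * (1 + I) ^ ((j : ℤ) - l))
          * Yp ^ (2 * n + 3 + j - l) * (Zp - 1) ^ (2 * n), sum_mem fun j hj => ?_, fun e he => ?_⟩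
      · exact mul_mem (mul_mem (C_mem_lifts (Apr_coeff_mem n k i l j hk hi hl.symm
          (Finset.mem_range.1 hj))) (pow_mem Yp_lifts _)) (pow_mem Zp_sub_one_lifts _)
      · show _ = _ * (_ * Apr l (ze e)) * _
        rw [Apr, Finset.mul_sum, Finset.mul_sum, Finset.sum_mul, eval_finsetSum]
        refine Finset.sum_congr rfl fun j hj => ?_
        have hj := Finset.mem_range.1 hj
        simp only [Vp, eval_mul, eval_C, eval_pow, eval_sub, eval_one, eval_Zp, eval_Yp]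
        rw [← zpow_natCast (I + e) (2 * n + 3 + j - l), show ((2 * n + 3 + j - l : ℕ) : ℤ)
          = ((j : ℤ) - l) + (2 * n + 3 : ℕ) by omega, zpow_add₀ he.1, zpow_natCast, ze, mul_zpow]
        ring
    | negSucc j =>
      refine ⟨∑ m ∈ range (j + 1), C ((1 + I) ^ 2 * ((den n : ℂ)
        / (((m : ℤ) - 2 * (j + 1 : ℕ) + 1 : ℤ) : ℂ)) * (((j + 1 - 1).choose m : ℕ) : ℂ)
        * (cf n i : ℂ)) * Yp ^ (2 * n + 3) * (Zp - 1) ^ (2 * n + m + 1 - 2 * (j + 1)),
        sum_mem fun m hm => ?_, fun e he => ?_⟩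
      · have hm := Finset.mem_range.1 hm
        refine mul_mem (mul_mem (C_mem_lifts ?_) (pow_mem Yp_lifts _)) (pow_mem Zp_sub_one_lifts _)
        refine mul_mem (mul_mem (mul_mem (pow_mem one_add_I_mem 2) ?_) (natCast_mem _ _))
          (intCast_mem _ _)
        exact div_den_mem n _ (by rw [abs_le]; omega)
      · show _ = _ * (_ * Bpr (j + 1) (ze e)) * _
        rw [Bpr, Finset.mul_sum, Finset.mul_sum, Finset.sum_mul, eval_finsetSum]
        refine Finset.sum_congr rfl fun m hm => ?_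
        have hm := Finset.mem_range.1 hm
        have h1 : ze e - 1 ≠ 0 := sub_ne_zero.2 he.2
        simp only [Vp, eval_mul, eval_C, eval_pow, eval_sub, eval_one, eval_Zp, eval_Yp]
        rw [← zpow_natCast (ze e - 1) (2 * n + m + 1 - 2 * (j + 1)),
          show ((2 * n + m + 1 - 2 * (j + 1) : ℕ) : ℤ)
            = ((m : ℤ) - 2 * (j + 1 : ℕ) + 1) + (2 * n : ℕ) by omega, zpow_add₀ h1, zpow_natCast]
        ring
  choose! U hU1 hU2 using term
  refine ⟨∑ i ∈ range (3 * n + 1), U i, sum_mem hU1, fun e he => ?_⟩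
  rw [eval_finsetSum, Tv, G, Finset.mul_sum, Finset.sum_mul]
  exact Finset.sum_congr rfl fun i hi => hU2 i hi e he

/-- unit-free factor of the derivative -/
def Rp (n k : ℕ) : ℂ[X] :=
  C ((1 + I) ^ (2 - k)) * (Zp + 1) ^ (2 * n) * (C 2 * Zp ^ 2 + C 2 * Zp + 1) ^ n
    * (Zp - 1) ^ (2 * k + 2 * n) * Yp ^ (2 * n + 5 - k)

lemma Rp_lifts (n k : ℕ) : Rp n k ∈ Polynomial.lifts GI.subtype := by
  refine mul_mem (mul_mem (mul_mem (mul_mem (C_mem_lifts (pow_mem one_add_I_mem _))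
    (pow_mem (add_mem Zp_lifts (one_mem _)) _)) (pow_mem ?_ _)) (pow_mem Zp_sub_one_lifts _))
    (pow_mem Yp_lifts _)
  exact add_mem (add_mem (mul_mem (C_mem_lifts (intCast_mem GI 2)) (pow_mem Zp_lifts 2))
    (mul_mem (C_mem_lifts (intCast_mem GI 2)) Zp_lifts)) (one_mem _)

def Omp (n k : ℕ) : ℂ[X] := C (den n : ℂ) * (X ^ n * (X - C del) ^ n * Rp n k)

def Wp (n k : ℕ) : ℂ[X] :=
  C ((1 + I) ^ 2 * (den n : ℂ) * (res n k : ℂ)) * Yp ^ (4 * n + 5) * (Zp - 1) ^ (4 * n)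

lemma om_aux (n k a b : ℕ) (i z y u A P f d : ℂ) {e : ℂ} (hz : z ≠ 0) (hu : u ≠ 0)
    (h : y ^ a * i ^ b * z ^ (2 * n + k + 1) = i ^ (2 * n + 3) * (y ^ (2 * n + 3)) ^ 2) :
    i ^ 3 * d * ((P ^ 2 * A * (i ^ 2 * e * f) / z ^ 3) ^ n * ((u ^ 2 / z) ^ k / (u ^ 2 / z) ^ n) / z)
      * (y ^ (2 * n + 3) * u ^ (2 * n)) ^ 2
    = d * (e ^ n * f ^ n * (i ^ b * P ^ (2 * n) * A ^ n * u ^ (2 * k + 2 * n) * y ^ a)) := by
  have e1 : (P ^ 2 * A * (i ^ 2 * e * f) / z ^ 3) ^ n * ((u ^ 2 / z) ^ k / (u ^ 2 / z) ^ n) / z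
      = P ^ (2 * n) * A ^ n * i ^ (2 * n) * e ^ n * f ^ n * u ^ (2 * k)
        / (u ^ (2 * n) * z ^ (2 * n + k + 1)) := by
    simp only [mul_pow, div_pow, ← pow_mul]
    field_simp
    ring
  rw [e1, mul_div_assoc', div_mul_eq_mul_div, div_eq_iff (mul_ne_zero (pow_ne_zero _ hu) (pow_ne_zero _ hz))]
  linear_combination (-(P ^ (2 * n) * A ^ n * e ^ n * f ^ n * u ^ (2 * k + 4 * n) * d)) * h

lemma om_identity (n k : ℕ) (hk : k ≤ 2) {e : ℂ} (he : Good e) :
    (1 + I) ^ 3 * (den n : ℂ) * om n k (ze e) * (Vp n).eval e ^ 2 = (Omp n k).eval e := by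
  set z := ze e with hz
  have hB : z ^ 2 + 2 * z + 2 = (1 + I) ^ 2 * e * (e - del) := by
    rw [hz, ze, del]
    linear_combination ((1 + I) * e + (I ^ 2 + 2 * I + 2)) * I_sq
  have hz0 : z ≠ 0 := he.ze_ne_zero
  have hz1 : z - 1 ≠ 0 := sub_ne_zero.2 he.2
  have hv : vv z = (z - 1) ^ 2 / z := rfl
  have hK : (Kp.map (Int.castRingHom ℂ)).eval (vv z)
      = (z + 1) ^ 2 * (2 * z ^ 2 + 2 * z + 1) * ((1 + I) ^ 2 * e * (e - del)) / z ^ 3 := by
    rw [← hB, hv]
    simp only [Kp, Polynomial.map_mul, Polynomial.map_add, map_X, Polynomial.map_pow, eval_mul,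
      eval_add, eval_X, eval_pow, eq_intCast, Polynomial.map_ofNat, eval_ofNat, Int.cast_ofNat]
    field_simp
    ring
  rw [om, hK, hv, zpow_sub₀ (div_ne_zero (pow_ne_zero _ hz1) hz0), zpow_natCast, zpow_natCast]
  simp only [Omp, Rp, Vp, eval_mul, eval_pow, eval_C, eval_X, eval_sub, eval_add, eval_one,
    eval_Zp, eval_Yp, ← hz]
  have hy : z = (1 + I) * (I + e) := rfl
  obtain ⟨a, ha⟩ : ∃ a, a = 2 * n + 5 - k := ⟨_, rfl⟩
  obtain ⟨b, hb⟩ : ∃ b, b = 2 - k := ⟨_, rfl⟩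
  rw [← ha, ← hb]
  have h1 : (I + e) ^ a * (1 + I) ^ b * z ^ (2 * n + k + 1)
      = (1 + I) ^ (2 * n + 3) * ((I + e) ^ (2 * n + 3)) ^ 2 := by
    rw [hy, mul_pow, ← pow_mul]
    have e1 : a + (2 * n + k + 1) = (2 * n + 3) * 2 := by omega
    have e2 : b + (2 * n + k + 1) = 2 * n + 3 := by omega
    rw [← e1, ← e2, pow_add, pow_add]; ring
  exact om_aux n k a b _ _ _ _ _ _ _ _ hz0 hz1 h1

lemma U_derivative (n k : ℕ) (hk : k ≤ 2) {U : ℂ[X]}
    (hU : ∀ e, Good e → U.eval e = Tv n k (ze e) * (Vp n).eval e) :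
    derivative U * Vp n - U * derivative (Vp n) + Wp n k = Omp n k := by
  refine Polynomial.eq_of_infinite_eval_eq _ _ (infinite_good.mono fun e he => ?_)
  have hze : HasDerivAt ze (1 + I) e := by
    have := ((hasDerivAt_id e).const_add I).const_mul (1 + I)
    exact this.congr_deriv (mul_one _)
  have hG := ((hasDerivAt_G n k he.ze_ne_zero he.2).comp e hze).const_mul
    ((1 + I) ^ 2 * (den n : ℂ))
  have hT := hG.mul ((Vp n).hasDerivAt e)
  have hev : (fun x => U.eval x) =ᶠ[𝓝 e]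
      fun x => (1 + I) ^ 2 * (den n : ℂ) * G n k (ze x) * (Vp n).eval x :=
    Filter.eventually_of_mem (isOpen_good.mem_nhds he) fun x hx => hU x hx
  have hd := (U.hasDerivAt e).unique (hT.congr_of_eventuallyEq hev)
  simp only [Function.comp] at hd
  show eval e _ = eval e _
  rw [← om_identity n k hk he]
  simp only [eval_add, eval_sub, eval_mul, hd, hU e he, Tv, Wp, eval_C, eval_pow, eval_Yp, eval_Zp,
    eval_one, Vp]
  have h0 : I + e ≠ 0 := he.1
  have := one_add_I_ne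
  rw [show 4 * n + 5 = (2 * n + 3) * 2 - 1 by omega, show 4 * n = 2 * n * 2 by ring]
  have hp : (I + e) ^ ((2 * n + 3) * 2 - 1) = ((I + e) ^ (2 * n + 3)) ^ 2 / (I + e) := by
    rw [← pow_mul, eq_div_iff h0, ← pow_succ]; congr 1
  rw [hp, pow_mul (ze e - 1) (2 * n) 2]
  generalize (ze e - 1) ^ (2 * n) = Zv
  generalize (I + e) ^ (2 * n + 3) = Yv
  generalize om n k (ze e) = w
  generalize G n k (ze e) = g
  simp only [ze]
  field_simp
  ring

end Vale.Agent.P021.Num
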