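import Vale.Agent.P021.Num.Descent
import Vale.Agent.P031.PNT.Psi

/-!
Approximations of `π` by fractions whose numerator has a large two part.
-/

open Filter Finset Topology
open scoped Real

noncomputable section

namespace Vale.Agent.P021.Num

lemma log_B : (29466 : ℝ) / 10000 ≤ -Real.log (21 / 400) := by
  rw [← Real.log_inv, Real.le_log_iff_exp_le (by norm_num)]
  have h1 : Real.exp 1 ≤ 2.7182818286 := Real.exp_one_lt_d9.le
  have h3 : Real.exp 3 ≤ 2.7182818286 ^ 3 := by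
    rw [show (3 : ℝ) = ((3 : ℕ) : ℝ) * 1 by norm_num, Real.exp_nat_mul]
    exact pow_le_pow_left₀ (Real.exp_pos _).le h1 3
  have h2 : Real.exp (-(534 / 10000)) ≤ (1 + 534 / 10000 + (534 / 10000) ^ 2 / 2 : ℝ)⁻¹ := by
    rw [Real.exp_neg]
    exact inv_anti₀ (by norm_num) (Real.quadratic_le_exp_of_nonneg (by norm_num))
  rw [show (29466 : ℝ) / 10000 = 3 + -(534 / 10000) by norm_num, Real.exp_add]
  refine (mul_le_mul h3 h2 (Real.exp_pos _).le (by norm_num)).trans ?_
  norm_num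

lemma log_183 : Real.log 183 ≤ (521 : ℝ) / 100 := by
  rw [Real.log_le_iff_le_exp (by norm_num)]
  have h1 : (2.7182818283 : ℝ) ≤ Real.exp 1 := Real.exp_one_gt_d9.le
  have h5 : (2.7182818283 : ℝ) ^ 5 ≤ Real.exp 5 := by
    rw [show (5 : ℝ) = ((5 : ℕ) : ℝ) * 1 by norm_num, Real.exp_nat_mul]
    exact pow_le_pow_left₀ (by norm_num) h1 5
  have h2 := Real.sum_le_exp_of_nonneg (show (0 : ℝ) ≤ 21 / 100 by norm_num) 5
  rw [show (521 : ℝ) / 100 = 5 + 21 / 100 by norm_num, Real.exp_add]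
  refine le_trans ?_ (mul_le_mul h5 h2 (by positivity) (Real.exp_pos _).le)
  simp only [Finset.sum_range_succ, Finset.sum_range_zero, Nat.factorial]
  norm_num

lemma den_eventually :
    ∀ᶠ n : ℕ in atTop, (den n : ℝ) ≤ Real.exp ((20003 : ℝ) / 10000 * n) := by
  have ht : Tendsto (fun n : ℕ => ((2 * n + 2 : ℕ) : ℝ)) atTop atTop :=
    tendsto_natCast_atTop_atTop.comp
      (tendsto_atTop_mono (fun n => show n ≤ 2 * n + 2 by omega) tendsto_id)
  filter_upwards [ht.eventually (P031.PNT.tendsto_psi_div.eventually (gt_mem_nhds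
    (show (1 : ℝ) < 1 + 1 / 10000 by norm_num))), eventually_ge_atTop 30000] with n hn hn'
  have hx : (0 : ℝ) < ((2 * n + 2 : ℕ) : ℝ) := by positivity
  rw [div_lt_iff₀ hx, Chebyshev.psi_eq_log_lcmUpto] at hn
  rw [den, ← Real.log_le_iff_le_exp (Nat.cast_pos.2 (Nat.lcmUpto_pos _))]
  refine hn.le.trans ?_
  have : (30000 : ℝ) ≤ n := by exact_mod_cast hn'
  push_cast; linarith

/-- the main estimate -/
theorem approx_two_part (η : ℝ) (_h0 : 0 ≤ η) (h1 : η ≤ 21 / 50) :
    ∃ Q : ℕ, ∀ (p : ℤ) (q v : ℕ), Q ≤ q → (2 : ℤ) ^ v ∣ p → (q : ℝ) ^ η ≤ 2 ^ v →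
      (q : ℝ) ^ (-(431 / 50 * (1 - η))) ≤ |π - (p : ℝ) / q| := by
  obtain ⟨N0, hN0⟩ := eventually_atTop.1 den_eventually
  set N1 := max N0 3
  set Q := ⌈Real.exp (1000000 + 3 * (N1 : ℝ))⌉₊
  refine ⟨Q, fun p q v hQ hv hη => ?_⟩
  have hqe : Real.exp (1000000 + 3 * (N1 : ℝ)) ≤ q :=
    (Nat.le_ceil _).trans (Nat.cast_le.2 hQ)
  have hq : (0 : ℝ) < q := lt_of_lt_of_le (Real.exp_pos _) hqe
  set L := Real.log q with hL
  have hLbig : 1000000 + 3 * (N1 : ℝ) ≤ L := (Real.le_log_iff_exp_le hq).2 hqe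
  have hN1 : (0 : ℝ) ≤ N1 := Nat.cast_nonneg _
  have hne : 0 ≤ 431 / 50 * (1 - η) := by nlinarith
  by_cases hp : p = 0
  · subst hp
    have hq1 : (1 : ℝ) ≤ q := le_trans (Real.one_le_exp (by linarith)) hqe
    refine (Real.rpow_le_one_of_one_le_of_nonpos hq1 (by linarith)).trans ?_
    rw [Int.cast_zero, zero_div, sub_zero, abs_of_pos Real.pi_pos]
    linarith [Real.pi_gt_three]
  set s : ℝ := 9463 / 10000 with hs
  set a : ℝ := 72103 / 10000 with ha
  set x : ℝ := ((1 - η) * L + 8) / s with hx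
  set n := ⌈x⌉₊ with hn
  have hmul : 29 / 50 * L ≤ (1 - η) * L :=
    mul_le_mul_of_nonneg_right (by linarith) (by linarith)
  have hx0 : (N1 : ℝ) ≤ x := by rw [hx, hs, le_div_iff₀ (by norm_num)]; linarith
  have hnx : x ≤ n := Nat.le_ceil x
  have hnx' : (n : ℝ) ≤ x + 1 := (Nat.ceil_lt_add_one (hN1.trans hx0)).le
  have hnN : N1 ≤ n := by exact_mod_cast hx0.trans hnx
  have hn3 : 3 ≤ n := (le_max_right _ _).trans hnN
  have hD := hN0 n ((le_max_left _ _).trans hnN)
  obtain ⟨k, hk, hZ⟩ := exists_nonzero p q hp n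
  -- size of the gain
  set w := min v (n - 3)
  have hwd : (2 : ℤ) ^ w ∣ Zint p q n k := by
    refine dvd_sub (Dvd.dvd.mul_left ?_ _) (Dvd.dvd.mul_right ?_ _)
    · exact (pow_dvd_pow _ (min_le_right _ _)).trans (Pi'_spec n k hk).2
    · exact (pow_dvd_pow _ (min_le_left _ _)).trans hv
  have hlow : (2 : ℝ) ^ w ≤ |(Zint p q n k : ℝ)| := by
    have := Int.le_of_dvd (abs_pos.2 hZ) ((dvd_abs _ _).2 hwd)
    exact_mod_cast this
  set Δ := |π - (p : ℝ) / q|
  have hden : (den n : ℝ) ≠ 0 := Nat.cast_ne_zero.2 (Nat.lcmUpto_ne_zero _)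
  have hid : (Zint p q n k : ℝ) = q * (2 * den n * lam n k)
      + (den n : ℝ) * res n k * (q * (π - (p : ℝ) / q)) := by
    rw [Zint, lam, rho]; push_cast; field_simp; ring
  have e1 : (den n : ℝ) * (21 / 400) ^ n ≤ Real.exp (-(s * n)) := by
    have h : ((21 : ℝ) / 400) ^ n ≤ Real.exp (-(29466 / 10000 * n)) := by
      rw [← Real.exp_log (show (0 : ℝ) < 21 / 400 by norm_num), ← Real.exp_nat_mul]
      refine Real.exp_le_exp.2 ?_
      have := mul_le_mul_of_nonneg_left log_B (Nat.cast_nonneg n : (0 : ℝ) ≤ n)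
      linarith
    refine (mul_le_mul hD h (by positivity) (Real.exp_pos _).le).trans (le_of_eq ?_)
    rw [← Real.exp_add, hs]; congr 1; ring
  have e2 : (den n : ℝ) * 183 ^ n ≤ Real.exp (a * n) := by
    have h : (183 : ℝ) ^ n ≤ Real.exp (521 / 100 * n) := by
      rw [← Real.exp_log (show (0 : ℝ) < 183 by norm_num), ← Real.exp_nat_mul]
      refine Real.exp_le_exp.2 ?_
      have := mul_le_mul_of_nonneg_left log_183 (Nat.cast_nonneg n : (0 : ℝ) ≤ n)
      linarith
    refine (mul_le_mul hD h (by positivity) (Real.exp_pos _).le).trans (le_of_eq ?_)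
    rw [← Real.exp_add, ha]; congr 1; ring
  have hup : |(Zint p q n k : ℝ)| ≤ 100 * q * Real.exp (-(s * n)) + 36 * Real.exp (a * n) * q * Δ := by
    rw [hid]
    refine (abs_add_le _ _).trans (add_le_add ?_ ?_)
    · rw [abs_mul, abs_mul, abs_mul, abs_of_pos hq, abs_of_pos (show (0 : ℝ) < 2 by norm_num),
        abs_of_nonneg (Nat.cast_nonneg _)]
      have := mul_le_mul_of_nonneg_left (abs_lam_le n k hk) (show (0 : ℝ) ≤ q * (2 * den n) by positivity)
      have := mul_le_mul_of_nonneg_left e1 (show (0 : ℝ) ≤ 100 * q by positivity)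
      linarith
    · rw [abs_mul, abs_mul, abs_mul, abs_of_pos hq, abs_of_nonneg (Nat.cast_nonneg _)]
      have := mul_le_mul_of_nonneg_left (abs_res_le n k hk)
        (show (0 : ℝ) ≤ den n * (q * Δ) by positivity)
      have := mul_le_mul_of_nonneg_left e2 (show (0 : ℝ) ≤ 36 * (q * Δ) by positivity)
      linarith
  -- logarithm of the gain
  have hl2 := Real.log_two_lt_d9
  have hl2' := Real.log_two_gt_d9
  have hw : η * L - 3 ≤ (w : ℝ) * Real.log 2 ∧ L + 6 - s * n ≤ (w : ℝ) * Real.log 2 := by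
    have hv' : η * L ≤ (v : ℝ) * Real.log 2 := by
      have := Real.log_le_log (Real.rpow_pos_of_pos hq η) hη
      rwa [Real.log_rpow hq, Real.log_pow] at this
    have hsx : (1 - η) * L + 8 ≤ s * n := by
      rw [hx, div_le_iff₀ (by norm_num)] at hnx; linarith
    rcases le_total v (n - 3) with hc | hc
    · rw [show w = v from min_eq_left hc]
      exact ⟨by linarith, by linarith⟩
    · rw [show w = n - 3 from min_eq_right hc, Nat.cast_sub hn3]
      have h3 := mul_le_mul_of_nonneg_left hl2'.le (Nat.cast_nonneg n : (0 : ℝ) ≤ n)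
      have hηL : η * L ≤ 21 / 50 * L := mul_le_mul_of_nonneg_right h1 (by linarith)
      rw [hs] at hsx ⊢
      push_cast
      constructor <;> linarith
  have h2w : (2 : ℝ) ^ w = Real.exp ((w : ℝ) * Real.log 2) := by
    rw [Real.exp_nat_mul, Real.exp_log two_pos]
  have hq' : (q : ℝ) = Real.exp L := (Real.exp_log hq).symm
  have hexp6 : (200 : ℝ) ≤ Real.exp 6 := by
    have := Real.sum_le_exp_of_nonneg (show (0 : ℝ) ≤ 6 by norm_num) 8
    simp only [Finset.sum_range_succ, Finset.sum_range_zero, Nat.factorial] at this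
    norm_num at this ⊢; linarith
  have hsmall : 100 * (q : ℝ) * Real.exp (-(s * n)) ≤ 2 ^ w / 2 := by
    have h := Real.exp_le_exp.2 hw.2
    rw [show L + 6 - s * n = L + -(s * n) + 6 by ring, Real.exp_add, Real.exp_add, ← hq', ← h2w] at h
    have := mul_le_mul_of_nonneg_left hexp6
      (show (0 : ℝ) ≤ q * Real.exp (-(s * n)) by positivity)
    linarith
  have hmain : 2 ^ w / 2 ≤ 36 * Real.exp (a * n) * q * Δ := by linarith
  -- final comparison
  have h72 : (72 : ℝ) ≤ Real.exp 5 := by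
    have := Real.sum_le_exp_of_nonneg (show (0 : ℝ) ≤ 5 by norm_num) 8
    simp only [Finset.sum_range_succ, Finset.sum_range_zero, Nat.factorial] at this
    norm_num at this ⊢; linarith
  rw [Real.rpow_def_of_pos hq, ← hL]
  have hkey : L * -(431 / 50 * (1 - η)) + 5 + a * n + L ≤ (w : ℝ) * Real.log 2 := by
    have hnb : a * n ≤ a * (((1 - η) * L + 8) / s + 1) :=
      mul_le_mul_of_nonneg_left hnx' (by rw [ha]; norm_num)
    rw [ha, hs] at hnb
    rw [ha]
    linarith [hw.1]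
  have h := Real.exp_le_exp.2 hkey
  rw [Real.exp_add, Real.exp_add, Real.exp_add, ← hq', ← h2w] at h
  have hpos : 0 < Real.exp (a * n) * q := by positivity
  refine le_of_mul_le_mul_right ?_ hpos
  have := mul_le_mul_of_nonneg_left h72 (show (0 : ℝ) ≤ Real.exp (L * -(431 / 50 * (1 - η)))
    * (Real.exp (a * n) * q) by positivity)
  linarith

/-- numerators that are powers of two -/
theorem approx_pow_two :
    ∃ Q : ℕ, ∀ q k : ℕ, Q ≤ q → (q : ℝ) ^ (-5 : ℝ) ≤ |π - (2 : ℝ) ^ k / q| := by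
  obtain ⟨Q, hQ⟩ := approx_two_part (21 / 50) (by norm_num) le_rfl
  refine ⟨max Q 1, fun q k hq => ?_⟩
  have hq1 : (1 : ℝ) ≤ q := by exact_mod_cast (le_max_right Q 1).trans hq
  rcases le_or_gt (q : ℝ) ((2 : ℝ) ^ k) with hb | hb
  · have hη : (q : ℝ) ^ ((21 : ℝ) / 50) ≤ 2 ^ k :=
      (Real.rpow_le_self_of_one_le hq1 (by norm_num)).trans hb
    have := hQ ((2 : ℤ) ^ k) q k ((le_max_left Q 1).trans hq) dvd_rfl hη
    push_cast at this
    refine le_trans ?_ this
    exact Real.rpow_le_rpow_of_exponent_le hq1 (by norm_num)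
  · refine (Real.rpow_le_one_of_one_le_of_nonpos hq1 (by norm_num)).trans ?_
    have : (2 : ℝ) ^ k / q < 1 := (div_lt_one (by linarith)).2 hb
    rw [abs_of_pos (by linarith [Real.pi_gt_three])]
    linarith [Real.pi_gt_three]

end Vale.Agent.P021.Num
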