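import Vale.Agent.P021.Num.Local

/-!
The rational part of the form is an integer with a large two part.
-/

open Polynomial Finset Complex
open scoped ComplexConjugate

noncomputable section

namespace Vale.Agent.P021.Num

/-- truncated inverse of `Vp`, up to a power of five -/
def Tp (n : ℕ) : ℂ[X] :=
  (C (-I) * ∑ a ∈ range (2 * n + 1), (C I * X) ^ a) ^ (2 * n + 3) *
  (C (-2 - I) * ∑ a ∈ range (2 * n + 1),
    (-(C ((1 + I) * (-2 - I)) * X)) ^ a * C (5 : ℂ) ^ (2 * n + 1 - 1 - a)) ^ (2 * n)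

def cc (n : ℕ) : ℤ := 5 ^ ((2 * n + 1) * (2 * n))

lemma Tp_lifts (n : ℕ) : Tp n ∈ Polynomial.lifts GI.subtype := by
  refine mul_mem (pow_mem (mul_mem (C_mem_lifts (neg_mem I_mem_GI)) (sum_mem fun a _ =>
    pow_mem (mul_mem (C_mem_lifts I_mem_GI) X_mem_lifts') a)) _)
    (pow_mem (mul_mem (C_mem_lifts (sub_mem (neg_mem (intCast_mem GI 2)) I_mem_GI))
      (sum_mem fun a _ => mul_mem (pow_mem ?_ a) (pow_mem (C_mem_lifts (intCast_mem GI 5)) _))) _)
  rw [← neg_mul, ← map_neg]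
  exact mul_mem (C_mem_lifts (neg_mem (mul_mem one_add_I_mem
    (sub_mem (neg_mem (intCast_mem GI 2)) I_mem_GI)))) X_mem_lifts'

lemma Vp_lifts (n : ℕ) : Vp n ∈ Polynomial.lifts GI.subtype :=
  mul_mem (pow_mem Yp_lifts _) (pow_mem Zp_sub_one_lifts _)

lemma CI_sq : (C I : ℂ[X]) ^ 2 = -1 := by rw [← C_pow, I_sq, map_neg, map_one]

lemma Vp_Tp (n : ℕ) : (X : ℂ[X]) ^ (2 * n + 1) ∣ Vp n * Tp n - C ((cc n : ℤ) : ℂ) := by
  set M := 2 * n + 1
  set s1 : ℂ[X] := ∑ a ∈ range M, (C I * X) ^ a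
  set t : ℂ[X] := -(C ((1 + I) * (-2 - I)) * X)
  set s2 : ℂ[X] := ∑ a ∈ range M, t ^ a * C (5 : ℂ) ^ (M - 1 - a)
  have h1 : Yp * (C (-I) * s1) = 1 - (C I * X) ^ M := by
    rw [← mul_neg_geom_sum (C I * X) M, ← mul_assoc]
    congr 1
    rw [Yp, map_neg]; linear_combination -CI_sq
  have h2 : (Zp - 1) * (C (-2 - I) * s2) = C ((5 : ℂ) ^ M) - t ^ M := by
    have := geom_sum₂_mul t (C (5 : ℂ)) M
    have e : (Zp - 1) * C (-2 - I) = C (5 : ℂ) - t := by
      simp only [Zp, Yp, t, map_mul, map_add, map_sub, map_neg, map_one, map_ofNat]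
      linear_combination (-(C I : ℂ[X]) - 3) * CI_sq
    rw [map_pow, ← mul_assoc, e]
    linear_combination -this
  have hV : Vp n * Tp n
      = (1 - (C I * X) ^ M) ^ (2 * n + 3) * (C ((5 : ℂ) ^ M) - t ^ M) ^ (2 * n) := by
    rw [← h1, ← h2, mul_pow, mul_pow, Vp]
    show _ * Tp n = _
    simp only [Tp, s1, s2, M, t, mul_pow]
    ring
  have d1 : (X : ℂ[X]) ^ M ∣ (1 - (C I * X) ^ M) ^ (2 * n + 3) - 1 ^ (2 * n + 3) :=
    dvd_trans ⟨-(C I) ^ M, by ring⟩ (sub_dvd_pow_sub_pow _ _ _)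
  have d2 : (X : ℂ[X]) ^ M ∣ (C ((5 : ℂ) ^ M) - t ^ M) ^ (2 * n) - C ((5 : ℂ) ^ M) ^ (2 * n) :=
    dvd_trans ⟨-(-(C ((1 + I) * (-2 - I)))) ^ M, by
      simp only [t]; rw [← neg_mul, mul_pow]; ring⟩ (sub_dvd_pow_sub_pow _ _ _)
  have e : C ((cc n : ℤ) : ℂ) = C ((5 : ℂ) ^ M) ^ (2 * n) := by
    rw [← map_pow, ← pow_mul, cc]; push_cast; rfl
  rw [hV, e]
  rw [one_pow] at d1
  have := dvd_add (d1.mul_right ((C ((5 : ℂ) ^ M) - t ^ M) ^ (2 * n))) d2
  convert this using 1; ring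

lemma derivative_dvd {p : ℂ[X]} {M : ℕ} (h : X ^ (M + 1) ∣ p) : X ^ M ∣ derivative p := by
  obtain ⟨q, rfl⟩ := h
  refine ⟨C ((M + 1 : ℕ) : ℂ) * q + X * derivative q, ?_⟩
  rw [derivative_mul, derivative_X_pow, Nat.add_sub_cancel]
  ring

/-- the truncated scaled log -/
def Lp (n k : ℕ) : ℂ[X] :=
  C ((1 + I) ^ 2 * (res n k : ℂ)) * (Lt (den n : ℂ) (2 * n + 1)).comp (C (-I) * X)

lemma Lp_deriv (n k : ℕ) :
    Yp * derivative (Lp n k)
      = C ((1 + I) ^ 2 * (res n k : ℂ) * (den n : ℂ)) * (1 - (C I * X) ^ (2 * n)) := by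
  have h := congrArg (fun p : ℂ[X] => p.comp (C (-I) * X)) (derivative_Lt (den n : ℂ) (2 * n))
  simp only [mul_comp, add_comp, one_comp, X_comp, sub_comp, C_comp, pow_comp, neg_comp] at h
  rw [Lp, derivative_C_mul, derivative_comp, derivative_C_mul, derivative_X, mul_one]
  have e : (1 : ℂ[X]) + C (-I) * X = C (-I) * Yp := by
    rw [Yp, map_neg]; linear_combination CI_sq
  rw [e] at h
  have e2 : -(C (-I) * X) = (C I * X : ℂ[X]) := by rw [map_neg]; ring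
  rw [e2] at h
  rw [map_mul _ ((1 + I) ^ 2 * (res n k : ℂ))]
  linear_combination (C ((1 + I) ^ 2 * (res n k : ℂ))) * h

lemma Wp_mul (n k : ℕ) :
    Yp * Wp n k = C ((1 + I) ^ 2 * (den n : ℂ) * (res n k : ℂ)) * Vp n ^ 2 := by
  rw [Wp, Vp, mul_pow, ← pow_mul, ← pow_mul, show (2 * n + 3) * 2 = (4 * n + 5) + 1 by omega,
    pow_succ, show 2 * n * 2 = 4 * n by ring]
  ring

/-- the key congruence -/
lemma S_congr (n k : ℕ) (U : ℂ[X]) (hO : derivative U * Vp n - U * derivative (Vp n) + Wp n k = Omp n k) :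
    (X : ℂ[X]) ^ (2 * n) ∣ derivative (C ((cc n : ℤ) : ℂ) * (U * Tp n)
      + C (((cc n : ℤ) : ℂ) ^ 2) * Lp n k) - Tp n ^ 2 * Omp n k := by
  set c : ℂ[X] := C ((cc n : ℤ) : ℂ) with hc
  have hE : (X : ℂ[X]) ^ (2 * n + 1) ∣ Vp n * Tp n - c := Vp_Tp n
  set E : ℂ[X] := Vp n * Tp n - c with hEdef
  have hE0 : (X : ℂ[X]) ^ (2 * n) ∣ E := dvd_trans ⟨X, pow_succ _ _⟩ hE
  have hE1 : (X : ℂ[X]) ^ (2 * n) ∣ derivative E := derivative_dvd hE
  have hEd : derivative E = derivative (Vp n) * Tp n + Vp n * derivative (Tp n) := by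
    rw [hEdef, hc, derivative_sub, derivative_mul, derivative_C, sub_zero]
  refine dvd_of_mul_unit (q := Yp) (by simp [Yp]) ?_
  set d : ℂ[X] := C ((1 + I) ^ 2 * (den n : ℂ) * (res n k : ℂ)) with hd
  have hL : Yp * derivative (Lp n k) = d * (1 - (C I * X) ^ (2 * n)) := by
    rw [Lp_deriv, hd, mul_right_comm]
  have key : Yp * (derivative (c * (U * Tp n) + C (((cc n : ℤ) : ℂ) ^ 2) * Lp n k)
      - Tp n ^ 2 * Omp n k)
      = Yp * (-(derivative U * Tp n) + -(U * derivative (Tp n))) * E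
        + Yp * U * Tp n * derivative E
        - d * (2 * c + E) * E - c ^ 2 * d * (C I * X) ^ (2 * n) := by
    rw [hc, derivative_add, derivative_C_mul, derivative_C_mul, derivative_mul, ← hO, map_pow, ← hc, hEd]
    have h1 := Wp_mul n k
    rw [← hd] at h1
    linear_combination c ^ 2 * hL - Tp n ^ 2 * h1
  rw [key]
  refine dvd_sub (dvd_sub (dvd_add (hE0.mul_left _) (hE1.mul_left _)) (hE0.mul_left _)) ?_
  exact ⟨c ^ 2 * d * C I ^ (2 * n), by ring⟩

lemma coeff_Omp_mem {n : ℕ} {R : ℂ[X]} (hR : R ∈ Polynomial.lifts GI.subtype) (m : ℕ) :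
    ∃ a ∈ GI, (X ^ n * (X - C del) ^ n * R).coeff m * del ^ m = del ^ (2 * n) * a := by
  have hdel : del ∈ GI := sub_mem (neg_mem (one_mem _)) I_mem_GI
  have e : (X ^ n * (X - C del) ^ n * R).comp (C del * X)
      = C (del ^ (2 * n)) * (X ^ n * (X - 1) ^ n * R.comp (C del * X)) := by
    simp only [mul_comp, pow_comp, X_comp, sub_comp, C_comp, map_pow]
    rw [show C del * X - C del = C del * (X - 1 : ℂ[X]) by ring, mul_pow, mul_pow, two_mul, pow_add]
    ring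
  refine ⟨(X ^ n * (X - 1) ^ n * R.comp (C del * X)).coeff m, coeff_mem_of_lifts (mul_mem (mul_mem
    (pow_mem X_mem_lifts' _) (pow_mem (sub_mem_lifts X_mem_lifts' (one_mem _)) _))
    (comp_mem_lifts hR (mul_mem (C_mem_lifts hdel) X_mem_lifts'))) m, ?_⟩
  rw [← comp_C_mul_X_coeff, e, coeff_C_mul]

lemma del_eq : del = -(1 + I) := by rw [del]; ring

lemma coeff_small (n k : ℕ) (S : ℂ[X]) (hSl : S ∈ Polynomial.lifts GI.subtype)
    (hd : ∀ d < 2 * n, (derivative S - Tp n ^ 2 * Omp n k).coeff d = 0) (m : ℕ) :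
    ∃ a ∈ GI, S.coeff (m + 1) * del ^ (m + 1) = del ^ (2 * n + 1) * a := by
  have hdel : del ∈ GI := sub_mem (neg_mem (one_mem _)) I_mem_GI
  rcases lt_or_ge m (2 * n) with hm | hm
  · have h := hd m hm
    rw [coeff_sub, sub_eq_zero, coeff_derivative] at h
    obtain ⟨a, ha, hae⟩ := coeff_Omp_mem (n := n) (mul_mem (pow_mem (Tp_lifts n) 2) (Rp_lifts n k)) m
    have e : (Tp n ^ 2 * Omp n k).coeff m
        = (den n : ℂ) * (X ^ n * (X - C del) ^ n * (Tp n ^ 2 * Rp n k)).coeff m := by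
      have e' : Tp n ^ 2 * Omp n k
          = C (den n : ℂ) * (X ^ n * (X - C del) ^ n * (Tp n ^ 2 * Rp n k)) := by rw [Omp]; ring
      rw [e', coeff_C_mul]
    refine ⟨(den n : ℂ) / (((m + 1 : ℕ) : ℤ) : ℂ) * a,
      mul_mem (div_den_mem n _ (by rw [abs_le]; omega)) ha, ?_⟩
    rw [e] at h
    have : ((m : ℂ) + 1) ≠ 0 := Nat.cast_add_one_ne_zero m
    push_cast
    field_simp
    linear_combination del ^ (m + 1) * h + (den n : ℂ) * del * hae
  · obtain ⟨r, rfl⟩ := Nat.exists_eq_add_of_le hm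
    exact ⟨S.coeff (2 * n + r + 1) * del ^ r, mul_mem (coeff_mem_of_lifts hSl _) (pow_mem hdel _),
      by ring⟩

/-- main local congruence -/
lemma key_congr (n k : ℕ) (hk : k ≤ 2) :
    ∃ a ∈ GI, 4 * ((cc n : ℤ) : ℂ) ^ 2 * (Tv n k gb - Tv n k ga) = (1 + I) ^ (2 * n + 1) * a := by
  obtain ⟨U, hUl, hU⟩ := exists_U n k hk
  have hO := U_derivative n k hk hU
  set c : ℂ := ((cc n : ℤ) : ℂ) with hc
  have hcm : c ∈ GI := intCast_mem _ _
  have hdel : del ∈ GI := sub_mem (neg_mem (one_mem _)) I_mem_GI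
  have hLt : Lt (den n : ℂ) (2 * n + 1) ∈ Polynomial.lifts GI.subtype :=
    Lt_lifts fun m hm => div_den_mem n (m : ℤ) (by rw [abs_le]; omega)
  have hrl : (1 + I) ^ 2 * (res n k : ℂ) ∈ GI := mul_mem (pow_mem one_add_I_mem 2) (intCast_mem _ _)
  have hLpl : Lp n k ∈ Polynomial.lifts GI.subtype := mul_mem (C_mem_lifts hrl)
    (comp_mem_lifts hLt (mul_mem (C_mem_lifts (neg_mem I_mem_GI)) X_mem_lifts'))
  set S : ℂ[X] := C c * (U * Tp n) + C (c ^ 2) * Lp n k with hS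
  have hSl : S ∈ Polynomial.lifts GI.subtype :=
    add_mem (mul_mem (C_mem_lifts hcm) (mul_mem hUl (Tp_lifts n)))
      (mul_mem (C_mem_lifts (pow_mem hcm 2)) hLpl)
  have hd := S_congr n k U hO
  rw [← hS, X_pow_dvd_iff] at hd
  have hterm := fun m => coeff_small n k S hSl hd m
  choose a ha hae using hterm
  have hsum : S.eval del - S.coeff 0 = del ^ (2 * n + 1) * ∑ m ∈ range S.natDegree, a m := by
    rw [eval_eq_sum_range, Finset.sum_range_succ', pow_zero, mul_one, add_sub_cancel_right,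
      Finset.mul_sum]
    exact Finset.sum_congr rfl fun m _ => hae m
  obtain ⟨E, hE, hEe⟩ := eval_of_X_pow_dvd (Vp_Tp n)
    (sub_mem_lifts (mul_mem (Vp_lifts n) (Tp_lifts n)) (C_mem_lifts hcm)) hdel
  obtain ⟨L, hL, hLe⟩ := Lt_eval_small (d := (den n : ℂ)) (M := 2 * n)
    fun m hm => div_den_mem n (m : ℤ) (by rw [abs_le]; omega)
  have h0 : S.coeff 0 = c ^ 2 * Tv n k ga := by
    have hV0 : (Vp n).eval 0 * (Tp n).eval 0 = c := by
      have := X_pow_dvd_iff.1 (Vp_Tp n) 0 (by omega)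
      rw [coeff_zero_eq_eval_zero, eval_sub, eval_mul, eval_C, sub_eq_zero] at this
      exact this
    rw [coeff_zero_eq_eval_zero, hS, Lp]
    simp only [eval_add, eval_mul, eval_C, eval_comp, hU 0 good_zero, ze_zero, eval_X, mul_zero]
    rw [← coeff_zero_eq_eval_zero (Lt _ _), coeff_Lt_zero]
    linear_combination c * Tv n k ga * hV0
  have hdelI : -I * del = -1 + I := by rw [del]; linear_combination I_sq
  have h1 : S.eval del = c * Tv n k gb * (c + del ^ (2 * n + 1) * E)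
      + c ^ 2 * ((1 + I) ^ 2 * (res n k : ℂ) * (Lt (den n : ℂ) (2 * n + 1)).eval (-1 + I)) := by
    rw [eval_sub, eval_mul, eval_C, ← hc] at hEe
    rw [hS, Lp]
    simp only [eval_add, eval_mul, eval_C, eval_comp, hU del good_del, ze_del, eval_X, hdelI]
    linear_combination c * Tv n k gb * hEe
  have hTb : Tv n k gb ∈ GI := G_end_mem n k hk isEnd_gb
  refine ⟨(-1) ^ (2 * n + 1) * (4 * (∑ m ∈ range S.natDegree, a m) - 4 * c * Tv n k gb * E)
      - c ^ 2 * ((1 + I) ^ 2 * (res n k : ℂ)) * I ^ (2 * n + 1) * L, ?_, ?_⟩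
  · have h4 : (4 : ℂ) ∈ GI := intCast_mem GI 4
    exact sub_mem (mul_mem (pow_mem (neg_mem (one_mem _)) _) (sub_mem (mul_mem h4 (sum_mem fun m _ => ha m))
      (mul_mem (mul_mem (mul_mem h4 hcm) hTb) hE)))
      (mul_mem (mul_mem (mul_mem (pow_mem hcm 2) hrl) (pow_mem I_mem_GI _)) hL)
  · have eI : (-1 + I : ℂ) ^ (2 * n + 1) = I ^ (2 * n + 1) * (1 + I) ^ (2 * n + 1) := by
      rw [← mul_pow]; congr 1; linear_combination -I_sq
    have ed : del ^ (2 * n + 1) = (-1) ^ (2 * n + 1) * (1 + I) ^ (2 * n + 1) := by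
      rw [← mul_pow, del_eq]; ring
    rw [eI] at hLe
    rw [h1, h0, ed] at hsum
    linear_combination 4 * hsum - c ^ 2 * ((1 + I) ^ 2 * (res n k : ℂ)) * hLe

lemma conj_G (n k : ℕ) (z : ℂ) : conj (G n k z) = G n k (conj z) := by
  rw [G, G, map_sum]
  refine Finset.sum_congr rfl fun i _ => ?_
  rw [map_mul, map_intCast]
  congr 1
  generalize (i : ℤ) + k - n = l
  cases l with
  | ofNat l => simp [Pr, Apr, map_sum, map_zpow₀]
  | negSucc j => simp [Pr, Bpr, map_sum, map_zpow₀, map_ofNat]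

/-- the rational part, as an integer -/
lemma exists_P (n k : ℕ) (hk : k ≤ 2) :
    ∃ P : ℤ, Tv n k gb - Tv n k ga = (P : ℂ) ∧ (2 : ℤ) ^ (n - 3) ∣ P := by
  obtain ⟨x, hx⟩ := (sub_mem (G_end_mem n k hk isEnd_gb) (G_end_mem n k hk isEnd_ga) :
    Tv n k gb - Tv n k ga ∈ GI)
  have hga : conj ga = gb := by simp [ga, gb, sub_eq_add_neg]
  have hgb : conj gb = ga := by rw [← hga, Complex.conj_conj]
  have hre : conj (Tv n k gb - Tv n k ga) = Tv n k gb - Tv n k ga := by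
    simp only [Tv, map_sub, map_mul, map_pow, conj_G, hga, hgb, map_natCast, map_add, map_one, conj_I]
    linear_combination (den n : ℂ) * (G n k ga - G n k gb) * 2 * I_sq
  have him : x.im = 0 := by
    have h := Complex.conj_eq_iff_im.1 hre
    rw [← hx, ← GaussianInt.intCast_im] at h
    exact_mod_cast h
  have hP : Tv n k gb - Tv n k ga = (x.re : ℂ) := by
    rw [← hx, GaussianInt.toComplex_def, him, Int.cast_zero, zero_mul, add_zero]
  refine ⟨x.re, hP, ?_⟩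
  obtain ⟨a, ⟨g, rfl⟩, ha⟩ := key_congr n k hk
  have h := congrArg Complex.normSq ha
  rw [hP, map_mul, map_mul, map_mul, map_pow, map_pow, ← GaussianInt.intCast_real_norm] at h
  rw [show ((cc n : ℤ) : ℂ) = ((cc n : ℝ) : ℂ) by simp, ← Complex.ofReal_intCast x.re,
    show (4 : ℂ) = ((4 : ℝ) : ℂ) by simp, normSq_ofReal, normSq_ofReal, normSq_ofReal,
    show Complex.normSq (1 + I) = 2 by simp [normSq_apply]; norm_num] at h
  have h' : ((16 * (cc n) ^ 4 * x.re ^ 2 : ℤ) : ℝ)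
      = ((2 ^ (2 * n + 1) * g.norm : ℤ) : ℝ) := by
    push_cast; linear_combination h
  have h'' := Int.cast_injective h'
  rcases Nat.lt_or_ge n 3 with hn | hn
  · rw [Nat.sub_eq_zero_of_le hn.le, pow_zero]; exact one_dvd _
  obtain ⟨m, rfl⟩ := Nat.exists_eq_add_of_le hn
  rw [show 3 + m - 3 = m by omega, ← Int.pow_dvd_pow_iff (two_ne_zero), ← pow_mul]
  have hcop : IsCoprime ((2 : ℤ) ^ (m * 2)) ((cc (3 + m)) ^ 4) := by
    rw [cc, ← pow_mul]; exact IsCoprime.pow (Int.isCoprime_iff_gcd_eq_one.2 rfl)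
  refine hcop.dvd_of_dvd_mul_left ⟨2 ^ 3 * g.norm, ?_⟩
  have : (16 : ℤ) * ((cc (3 + m)) ^ 4 * x.re ^ 2)
      = 16 * (2 ^ (m * 2) * (2 ^ 3 * g.norm)) := by
    rw [show 2 * (3 + m) + 1 = m * 2 + 3 + 4 by ring, pow_add, pow_add] at h''
    linear_combination h''
  exact mul_left_cancel₀ (by norm_num) this

end Vale.Agent.P021.Num
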